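import Vale.Agent.P318.H110.SearchSpec

/-!
Determinants on natural numbers, by the formula of Ryser (characteristic two).
-/

namespace Vale.Agent.P318.H110

open Vale.Agent.P318.NPH

/-- The product of a list of field elements. -/
def xprod (q P : ℕ) (l : List ℕ) : ℕ := l.foldr (fun a b => mulN q P a b) 1

/-- The entry `i, l` of the matrix `∑ j, x_j • a_j a_jᵀ`, where `a_j` are the columns. -/
def entN (q P : ℕ) (cols : List ℕ) (x i l : ℕ) : ℕ :=
  xsum ((List.range cols.length).map fun j => mulN q P (dig q x j)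
    (mulN q P (dig q (cols.getD j 0) i) (dig q (cols.getD j 0) l)))

/-- The entry `i, l` of the same matrix plus the diagonal matrix `1 + z`. -/
def entZ (q P : ℕ) (cols : List ℕ) (x z i l : ℕ) : ℕ :=
  entN q P cols x i l ^^^ (if i = l ∧ z.testBit i = false then 1 else 0)

/-- The determinant of this matrix, by the formula of Ryser. -/
def deltaN (q P k : ℕ) (cols : List ℕ) (x z : ℕ) : ℕ :=
  xsum ((List.range (2 ^ k)).map fun S => xprod q P ((List.range k).map fun i =>
    xsum ((List.range k).map fun l => if S.testBit l = true then entZ q P cols x z i l else 0)))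

/-! ### The formula of Ryser -/

theorem ryser {K ι : Type*} [CommRing K] [CharP K 2] [Fintype ι] [DecidableEq ι]
    (A : Matrix ι ι K) : ∑ S : Finset ι, ∏ i, ∑ l ∈ S, A i l = A.det := by
  classical
  have h1 : ∀ S : Finset ι, ∏ i, ∑ l ∈ S, A i l =
      ∑ p : ι → ι, if (Finset.univ.image p) ⊆ S then ∏ i, A i (p i) else 0 := by
    intro S
    refine (Finset.prod_univ_sum (fun _ => S) (fun i l => A i l)).trans ?_
    rw [← Finset.sum_filter]
    apply Finset.sum_congr _ fun _ _ => rfl
    ext p
    simp [Fintype.mem_piFinset, Finset.image_subset_iff]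
  simp only [h1]
  rw [Finset.sum_comm]
  have h2 : ∀ p : ι → ι, (∑ S : Finset ι, if (Finset.univ.image p) ⊆ S then ∏ i, A i (p i) else 0) =
      if Function.Bijective p then ∏ i, A i (p i) else 0 := by
    intro p
    rw [← Finset.sum_filter, Finset.sum_const]
    have h3 : (Finset.univ.filter fun S => Finset.univ.image p ⊆ S) =
        Finset.Icc (Finset.univ.image p) Finset.univ := by
      ext S
      simp [Finset.mem_Icc]
    rw [h3, Finset.card_Icc_finset (Finset.subset_univ _), nsmul_eq_mul]
    split_ifs with hp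
    · rw [Finset.image_univ_of_surjective hp.surjective]
      simp
    · have h4 : (Finset.univ.image p).card < (Finset.univ : Finset ι).card := by
        apply Finset.card_lt_card
        rw [Finset.ssubset_univ_iff]
        intro h5
        apply hp
        have : Function.Surjective p := by
          intro x
          have := Finset.mem_univ x
          rw [← h5] at this
          obtain ⟨y, -, hy⟩ := Finset.mem_image.1 this
          exact ⟨y, hy⟩
        exact Finite.surjective_iff_bijective.1 this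
      obtain ⟨m, hm⟩ : ∃ m, (Finset.univ : Finset ι).card - (Finset.univ.image p).card = m + 1 :=
        ⟨_, (Nat.succ_pred_eq_of_pos (by omega)).symm⟩
      rw [hm, pow_succ, Nat.cast_mul]
      have : ((2 : ℕ) : K) = 0 := CharP.cast_eq_zero K 2
      rw [this]
      simp
  simp only [h2]
  rw [← Finset.sum_filter, ← Matrix.det_transpose, Matrix.det_apply]
  have h6 : ∀ σ : Equiv.Perm ι, Equiv.Perm.sign σ • ∏ i, A.transpose (σ i) i =
      ∏ i, A i (σ i) := by
    intro σ
    rcases Int.units_eq_one_or (Equiv.Perm.sign σ) with h | h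
    · rw [h]; simp [Matrix.transpose_apply]
    · rw [h]
      simp only [Units.neg_smul, one_smul, Matrix.transpose_apply]
      exact CharTwo.neg_eq _
  simp only [h6]
  symm
  refine Finset.sum_bij (fun (σ : Equiv.Perm ι) _ => (⇑σ : ι → ι)) ?_ ?_ ?_ ?_
  · intro σ _
    simp
  · intro σ _ τ _ h
    exact Equiv.ext (congrFun h)
  · intro p hp
    exact ⟨Equiv.ofBijective p (Finset.mem_filter.1 hp).2, Finset.mem_univ _, rfl⟩
  · intro _ _
    rfl

/-! ### Correctness -/

variable {s P : ℕ}

theorem list_sum_fin {K : Type*} [AddCommMonoid K] (f : ℕ → K) (N : ℕ) :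
    ((List.range N).map f).sum = ∑ i : Fin N, f i := by
  rw [← Finset.sum_range]
  rfl

theorem el_xsum_range (P : ℕ) (f : ℕ → ℕ) (N : ℕ) :
    el P (xsum ((List.range N).map f)) = ∑ i : Fin N, el P (f i) := by
  rw [el_xsum, list_sum_fin]

theorem el_xprod (q P : ℕ) (l : List ℕ) : el P (xprod q P l) = (l.map (el P)).prod := by
  induction l with
  | nil => simp [xprod, el_one]
  | cons a l ih =>
    have : xprod q P (a :: l) = mulN q P a (xprod q P l) := rfl
    rw [this, el_mulN, ih, List.map_cons, List.prod_cons]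

theorem el_xprod_range (q P : ℕ) (f : ℕ → ℕ) (N : ℕ) :
    el P (xprod q P ((List.range N).map f)) = ∏ i : Fin N, el P (f i) := by
  rw [el_xprod, List.map_map, ← Finset.prod_range (fun i => el P (f i))]
  rfl

theorem xprod_lt (hs : 1 ≤ s) (h : 2 ^ s ≤ P) (h' : P < 2 ^ (s + 1)) {l : List ℕ}
    (hl : ∀ x ∈ l, x < 2 ^ s) : xprod (2 ^ s) P l < 2 ^ s := by
  cases l with
  | nil => exact Nat.one_lt_two_pow (by omega)
  | cons a l => exact mulN_lt h h' _ (hl a List.mem_cons_self)

theorem entN_lt (h : 2 ^ s ≤ P) (h' : P < 2 ^ (s + 1)) (cols : List ℕ) (x i l : ℕ) :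
    entN (2 ^ s) P cols x i l < 2 ^ s := by
  apply xsum_lt
  intro y hy
  obtain ⟨j, -, rfl⟩ := List.mem_map.1 hy
  exact mulN_lt h h' _ (dig_lt (by positivity) _ _)

theorem entZ_lt (hs : 1 ≤ s) (h : 2 ^ s ≤ P) (h' : P < 2 ^ (s + 1)) (cols : List ℕ)
    (x z i l : ℕ) : entZ (2 ^ s) P cols x z i l < 2 ^ s := by
  apply Nat.xor_lt_two_pow (entN_lt h h' _ _ _ _)
  have := Nat.one_lt_two_pow (n := s) (by omega)
  split_ifs <;> omega

theorem deltaN_lt (hs : 1 ≤ s) (h : 2 ^ s ≤ P) (h' : P < 2 ^ (s + 1)) (k : ℕ) (cols : List ℕ)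
    (x z : ℕ) : deltaN (2 ^ s) P k cols x z < 2 ^ s := by
  apply xsum_lt
  intro y hy
  obtain ⟨S, -, rfl⟩ := List.mem_map.1 hy
  apply xprod_lt hs h h'
  intro y hy
  obtain ⟨i, -, rfl⟩ := List.mem_map.1 hy
  apply xsum_lt
  intro y hy
  obtain ⟨l, -, rfl⟩ := List.mem_map.1 hy
  split_ifs
  · exact entZ_lt hs h h' _ _ _ _ _
  · positivity

theorem el_entZ (q P k : ℕ) (cols : List ℕ) (x z : ℕ) (i l : Fin k) :
    el P (entZ q P cols x z i l) =
      (∑ j : Fin cols.length, vec P q cols.length x j *
        (vec P q k (cols.getD j 0) i * vec P q k (cols.getD j 0) l)) +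
      (if i = l then (if z.testBit i then 0 else 1) else 0) := by
  unfold entZ entN
  rw [el_xor, el_xsum_range]
  simp only [el_mulN, vec]
  congr 1
  simp only [Fin.ext_iff]
  by_cases h1 : (i : ℕ) = l <;> by_cases h2 : z.testBit i = true <;>
    simp [h1, h2, el_zero, el_one]
  all_goals simp_all [el_zero, el_one]

/-- The bits of a number as a set. -/
def bitSet (k S : ℕ) : Finset (Fin k) := Finset.univ.filter fun l => S.testBit l = true

theorem sum_bitSet {K : Type*} [AddCommMonoid K] (k : ℕ) (f : Finset (Fin k) → K) :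
    ∑ S : Fin (2 ^ k), f (bitSet k S) = ∑ A : Finset (Fin k), f A := by
  have hb : Function.Bijective (fun S : Fin (2 ^ k) => bitSet k S) := by
    rw [Fintype.bijective_iff_injective_and_card]
    refine ⟨fun S T hST => ?_, by simp⟩
    apply Fin.ext
    apply Nat.eq_of_testBit_eq
    intro i
    by_cases hi : i < k
    · have := congrArg (fun A : Finset (Fin k) => (⟨i, hi⟩ : Fin k) ∈ A) hST
      simp only [bitSet, Finset.mem_filter, Finset.mem_univ, true_and, eq_iff_iff] at this
      exact Bool.eq_iff_iff.2 this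
    · rw [Nat.testBit_lt_two_pow (S.2.trans_le (Nat.pow_le_pow_right (by norm_num) (by omega))),
        Nat.testBit_lt_two_pow (T.2.trans_le (Nat.pow_le_pow_right (by norm_num) (by omega)))]
  exact hb.sum_comp f

theorem el_deltaN (q P k : ℕ) (cols : List ℕ) (x z : ℕ) :
    el P (deltaN q P k cols x z) = ∑ A : Finset (Fin k), ∏ i : Fin k, ∑ l ∈ A,
      el P (entZ q P cols x z i l) := by
  rw [← sum_bitSet]
  unfold deltaN
  rw [el_xsum_range]
  refine Finset.sum_congr rfl fun S _ => ?_
  rw [el_xprod_range]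
  refine Finset.prod_congr rfl fun i _ => ?_
  rw [el_xsum_range, bitSet, Finset.sum_filter]
  refine Finset.sum_congr rfl fun l _ => ?_
  split_ifs
  · rfl
  · exact el_zero P

theorem charTwo (hs : 1 ≤ s) (h : 2 ^ s ≤ P) (h' : P < 2 ^ (s + 1)) :
    CharP (AdjoinRoot (poly P)) 2 := by
  have h1 : (1 : ℕ) < 2 ^ s := Nat.one_lt_two_pow (by omega)
  apply CharTwo.of_one_ne_zero_of_two_eq_zero
  · intro h0
    rw [← el_zero P, ← el_one P] at h0
    have := el_inj h h' h1 (by positivity) h0
    omega
  · have h2 := el_xor P 1 1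
    rw [Nat.xor_self, el_zero, el_one] at h2
    rw [h2]
    norm_num

/-- The number `deltaN` is the determinant. -/
theorem el_deltaN_det (hs : 1 ≤ s) (h : 2 ^ s ≤ P) (h' : P < 2 ^ (s + 1)) (k : ℕ)
    (cols : List ℕ) (x z : ℕ) :
    el P (deltaN (2 ^ s) P k cols x z) = Matrix.det (Matrix.of fun i l : Fin k =>
      (∑ j : Fin cols.length, vec P (2 ^ s) cols.length x j *
        (vec P (2 ^ s) k (cols.getD j 0) i * vec P (2 ^ s) k (cols.getD j 0) l)) +
      (if i = l then (if z.testBit i then 0 else 1) else 0)) := by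
  have := charTwo hs h h'
  rw [el_deltaN, ← ryser]
  simp only [el_entZ, Matrix.of_apply]

end Vale.Agent.P318.H110
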