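import Vale.Agent.P318.H110.Search
import Vale.Agent.P318.H110.DetN
import Vale.Agent.P318.H321.Code
import Vale.Agent.P318.S6.Field

/-!
The list of columns found by the search is a good code, over every field with `2 ^ s` elements.
-/

namespace Vale.Agent.P318.H110

open Vale.Agent.P318.NPH Vale.Agent.P318.S6

/-! ### From `Good` to the hypothesis of the search -/

section

variable {K : Type*} [Field K]

theorem quad_eq {κ : Type*} [Fintype κ] (M : κ → κ → K) (v : κ → K) :
    H321.quad M v = quad M v := rfl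

/-- The columns can be ordered so that the unit vectors come first. -/
theorem exists_first {n k : ℕ} {θ : ℝ} {a : Fin n → Fin k → K} (h : H321.Good θ a) :
    ∃ (hk : k ≤ n) (σ : Fin n ≃ Fin n), ∀ i : Fin k, a (σ (Fin.castLE hk i)) = Pi.single i 1 := by
  classical
  obtain ⟨Q, hQ, hQ'⟩ := h.exists_pos
  have hk : k ≤ n := by simpa using Fintype.card_le_of_injective Q hQ
  obtain ⟨g, hg⟩ := Finset.exists_equiv_extend_of_card_eq (α := Fin n) (β := Fin n)
    (t := Finset.univ) (by simp)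
    (s := Finset.univ.image (Fin.castLE hk)) (f := fun i => if hi : (i : ℕ) < k then Q ⟨i, hi⟩ else i)
    (Finset.subset_univ _) (by
      intro x hx y hy hxy
      simp only [Finset.coe_image, Finset.coe_univ, Set.image_univ, Set.mem_range] at hx hy
      obtain ⟨x, rfl⟩ := hx
      obtain ⟨y, rfl⟩ := hy
      simp only [Fin.val_castLE, Fin.is_lt, dif_pos, Fin.eta] at hxy
      rw [hQ hxy])
  refine ⟨hk, g.trans (Equiv.subtypeUnivEquiv fun _ => Finset.mem_univ _), fun i => ?_⟩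
  have h1 := hg (Fin.castLE hk i) (Finset.mem_image_of_mem _ (Finset.mem_univ _))
  simp only [Fin.val_castLE, Fin.is_lt, dif_pos, Fin.eta] at h1
  have h2 : (g.trans (Equiv.subtypeUnivEquiv fun _ => Finset.mem_univ _)) (Fin.castLE hk i) = Q i := h1
  rw [h2]
  funext l
  rw [Pi.single_apply]
  split_ifs with hl
  · rw [hl]
    exact (hQ' i).1
  · exact (hQ' i).2 l hl

theorem sqDist_of_good {ι κ : Type*} [Fintype ι] [Fintype κ] {θ : ℝ} {a : ι → κ → K}
    (h : H321.Good θ a) {dd : ℕ} (hdd : 1 ≤ (1 - θ) * dd) : SqDist a 1 dd := by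
  classical
  intro M hM
  have h1 := h.dist' M hM
  have h2 : ({j | quad M (a j) ≠ 0} : Set ι).ncard +
      (Finset.univ.filter fun j => H321.quad M (a j) = 0).card = Fintype.card ι := by
    rw [Set.ncard_eq_toFinset_card']
    have h3 : ({j | quad M (a j) ≠ 0} : Set ι).toFinset =
        Finset.univ.filter fun j => ¬ H321.quad M (a j) = 0 := by
      ext j
      rw [Set.mem_toFinset, Finset.mem_filter]
      simp [quad_eq]
    rw [h3, add_comm, Finset.card_filter_add_card_filter_not, Finset.card_univ]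
  rw [one_mul]
  have h4 : (Fintype.card ι : ℝ) ≤ dd * ({j | quad M (a j) ≠ 0} : Set ι).ncard := by
    have h5 : (({j | quad M (a j) ≠ 0} : Set ι).ncard : ℝ) +
      (Finset.univ.filter fun j => H321.quad M (a j) = 0).card = Fintype.card ι := by
      exact_mod_cast h2
    have h6 : (0 : ℝ) ≤ Fintype.card ι := Nat.cast_nonneg _
    have h7 : (0 : ℝ) ≤ dd := Nat.cast_nonneg _
    have h8 : (1 - θ) * Fintype.card ι ≤ ({j | quad M (a j) ≠ 0} : Set ι).ncard := by linarith
    calc (Fintype.card ι : ℝ) = 1 * Fintype.card ι := (one_mul _).symm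
      _ ≤ ((1 - θ) * dd) * Fintype.card ι := mul_le_mul_of_nonneg_right hdd h6
      _ = dd * ((1 - θ) * Fintype.card ι) := by ring
      _ ≤ dd * ({j | quad M (a j) ≠ 0} : Set ι).ncard := mul_le_mul_of_nonneg_left h8 h7
  exact_mod_cast h4

theorem good_of_sqDist {ι κ : Type*} [Fintype ι] [Fintype κ] {a : ι → κ → K} {dn dd : ℕ}
    (hdd : 0 < dd) (h : SqDist a dn dd)
    (hsys : ∀ i, ∃ j, a j i = 1 ∧ ∀ l, l ≠ i → a j l = 0) :
    H321.Good (1 - (dn : ℝ) / dd) a := by
  classical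
  refine ⟨hsys, fun M hM => ?_⟩
  have h1 := h M hM
  have h2 : ({j | quad M (a j) ≠ 0} : Set ι).ncard +
      (Finset.univ.filter fun j => H321.quad M (a j) = 0).card = Fintype.card ι := by
    rw [Set.ncard_eq_toFinset_card']
    have h3 : ({j | quad M (a j) ≠ 0} : Set ι).toFinset =
        Finset.univ.filter fun j => ¬ H321.quad M (a j) = 0 := by
      ext j
      rw [Set.mem_toFinset, Finset.mem_filter]
      simp [quad_eq]
    rw [h3, add_comm, Finset.card_filter_add_card_filter_not, Finset.card_univ]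
  have h5 : (({j | quad M (a j) ≠ 0} : Set ι).ncard : ℝ) +
      (Finset.univ.filter fun j => H321.quad M (a j) = 0).card = Fintype.card ι := by
    exact_mod_cast h2
  have h6 : (dn : ℝ) * Fintype.card ι ≤ dd * ({j | quad M (a j) ≠ 0} : Set ι).ncard := by
    exact_mod_cast h1
  have hdd' : (0 : ℝ) < dd := by exact_mod_cast hdd
  have h7 : (dn : ℝ) / dd * Fintype.card ι ≤ ({j | quad M (a j) ≠ 0} : Set ι).ncard := by
    rw [div_mul_eq_mul_div, div_le_iff₀ hdd']
    linarith
  convert (show ((Finset.univ.filter fun j => H321.quad M (a j) = 0).card : ℝ) ≤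
    (1 - (dn : ℝ) / dd) * Fintype.card ι by linarith) using 3

theorem SqDist.map {L : Type*} [Field L] (g : K ≃+* L) {ι κ : Type*} [Fintype ι] [Fintype κ]
    {a : ι → κ → K} {dn dd : ℕ} (h : SqDist (fun j i => g (a j i)) dn dd) : SqDist a dn dd := by
  intro M ⟨j, hj⟩
  have hq : ∀ j, quad (fun i l => g (M i l)) (fun i => g (a j i)) = g (quad M (a j)) := by
    intro j
    simp [quad, map_sum]
  have h1 := h (fun i l => g (M i l)) ⟨j, by
    rw [hq]
    exact (map_ne_zero_iff g g.injective).2 hj⟩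
  have h2 : ({j | quad (fun i l => g (M i l)) (fun i => g (a j i)) ≠ 0} : Set ι) =
      {j | quad M (a j) ≠ 0} := by
    ext j
    simp only [Set.mem_ofPred_eq, hq]
    exact not_congr (map_eq_zero_iff g g.injective)
  rwa [h2] at h1

end

/-! ### The isomorphism -/

/-- The field `K` on numbers and the field of `FieldN`. -/
noncomputable def isoK {s P : ℕ} {K : Type*} [Field K] (F : FN s P K) (h : 2 ^ s ≤ P)
    (h' : P < 2 ^ (s + 1)) : K ≃+* AdjoinRoot (poly P) where
  toEquiv := F.e.trans (Equiv.ofBijective (fun n : Fin (2 ^ s) => el P n)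
    ⟨fun a b hab => Fin.ext (el_inj h h' a.2 b.2 hab), fun x => by
      obtain ⟨n, hn, hx⟩ := el_surj h h' x
      exact ⟨⟨n, hn⟩, hx⟩⟩)
  map_mul' x y := by
    show el P (F.e (x * y)) = el P (F.e x) * el P (F.e y)
    rw [F.mul, el_mulN]
  map_add' x y := by
    show el P (F.e (x + y)) = el P (F.e x) + el P (F.e y)
    rw [F.add, el_xor]

theorem isoK_apply {s P : ℕ} {K : Type*} [Field K] (F : FN s P K) (h : 2 ^ s ≤ P)
    (h' : P < 2 ^ (s + 1)) (x : K) : isoK F h h' x = el P (F.e x) := rfl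

/-- Every number is the code of a vector, and its image is `vec`. -/
theorem exists_vec {s P : ℕ} {K : Type*} [Field K] (F : FN s P K) (h : 2 ^ s ≤ P)
    (h' : P < 2 ^ (s + 1)) {k x : ℕ} (hx : x < (2 ^ s) ^ k) :
    ∃ v : Fin k → K, F.num v = x ∧ ∀ i, isoK F h h' (v i) = vec P (2 ^ s) k x i := by
  obtain ⟨v, rfl⟩ := F.exists_num hx
  refine ⟨v, rfl, fun i => ?_⟩
  rw [isoK_apply, ← F.dig_num]
  rfl

/-! ### The main theorem -/

theorem cols_good_aux {F0 : Type} [Field F0] [Fintype F0] {s0 : ℕ}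
    (hF0 : Fintype.card F0 = 2 ^ s0) {θ : ℝ} {c dd : ℕ} (hdd1 : 1 ≤ (1 - θ) * (dd : ℝ))
    (hdd0 : 0 < dd)
    (hcode : ∀ k, 1 ≤ k → ∃ n ≤ c * k, ∃ a : Fin n → Fin k → F0, H321.Good θ a) {s P : ℕ}
    (hs0s : s0 ∣ s) (hs : 1 ≤ s) (h : 2 ^ s ≤ P) (h' : P < 2 ^ (s + 1))
    (hirr : Irreducible (poly P)) (K : Type) [Field K] (F : FN s P K) (e : ℕ) (he : 1 ≤ e) :
      e * e ≤ (colsN (2 ^ s) P c e 1 dd).length ∧
      (colsN (2 ^ s) P c e 1 dd).length ≤ (c * e) * (c * e) ∧
      (∀ x ∈ colsN (2 ^ s) P c e 1 dd, x < (2 ^ s) ^ (e * e)) ∧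
      (∀ i < e * e, (colsN (2 ^ s) P c e 1 dd).getD i 0 = (2 ^ s) ^ i) ∧
      ∃ a : Fin (colsN (2 ^ s) P c e 1 dd).length → Fin (e * e) → K,
        (∀ j : Fin (colsN (2 ^ s) P c e 1 dd).length,
          F.num (a j) = (colsN (2 ^ s) P c e 1 dd).getD j 0) ∧
        H321.Good (1 - 1 / ((dd : ℝ) * dd)) a ∧
        ∀ (hk : e * e ≤ (colsN (2 ^ s) P c e 1 dd).length) (i : Fin (e * e)),
          a (Fin.castLE hk i) = Pi.single i 1 := by
  have : Fact (Irreducible (poly P)) := ⟨hirr⟩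
  -- the extension
  have hb : Function.Bijective (fun n : Fin (2 ^ s) => el P n) := by
    constructor
    · intro a b hab
      exact Fin.ext (el_inj h h' a.2 b.2 hab)
    · intro x
      obtain ⟨n, hn, rfl⟩ := el_surj h h' x
      exact ⟨⟨n, hn⟩, rfl⟩
  have hfin : Finite (AdjoinRoot (poly P)) := Finite.of_equiv _ (Equiv.ofBijective _ hb)
  let ft : Fintype (AdjoinRoot (poly P)) := Fintype.ofFinite _
  have hcard : Fintype.card (AdjoinRoot (poly P)) = 2 ^ s := by
    rw [← Fintype.card_congr (Equiv.ofBijective _ hb), Fintype.card_fin]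
  have hc0 : CharP F0 2 := by
    obtain ⟨p, hp⟩ := CharP.exists F0
    obtain ⟨m, hpr, hm⟩ := FiniteField.card F0 p
    have hp2 : p ∣ 2 ^ s0 := by
      rw [← hF0, hm]
      exact dvd_pow_self p m.ne_zero
    have : p = 2 := (Nat.prime_dvd_prime_iff_eq hpr Nat.prime_two).1 (hpr.dvd_of_dvd_pow hp2)
    rwa [this] at hp
  have hcK : CharP (AdjoinRoot (poly P)) 2 := charTwo hs h h'
  let a0 : Algebra (ZMod 2) F0 := ZMod.algebra F0 2
  let aK : Algebra (ZMod 2) (AdjoinRoot (poly P)) := ZMod.algebra _ 2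
  have hfr0 : Module.finrank (ZMod 2) F0 = s0 := by
    have := Module.card_eq_pow_finrank (K := ZMod 2) (V := F0)
    rw [hF0, ZMod.card] at this
    exact (Nat.pow_right_injective le_rfl this).symm
  have hfrK : Module.finrank (ZMod 2) (AdjoinRoot (poly P)) = s := by
    have := Module.card_eq_pow_finrank (K := ZMod 2) (V := AdjoinRoot (poly P))
    rw [hcard, ZMod.card] at this
    exact (Nat.pow_right_injective le_rfl this).symm
  obtain ⟨φ⟩ := FiniteField.nonempty_algHom_of_finrank_dvd (F := ZMod 2) (K := F0)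
    (L := AdjoinRoot (poly P)) (by rw [hfr0, hfrK]; exact hs0s)
  let aF : Algebra F0 (AdjoinRoot (poly P)) := φ.toRingHom.toAlgebra
  -- the hypothesis of the search
  have hex : ∃ (n : ℕ) (_ : n ≤ c * e) (hen : e ≤ n) (a : Fin n → Fin e → AdjoinRoot (poly P)),
      (∀ i : Fin e, a (Fin.castLE hen i) = Pi.single i 1) ∧ SqDist a 1 dd := by
    obtain ⟨n, hn, a, ha⟩ := hcode e he
    have ha' : H321.Good θ (fun j i => algebraMap F0 (AdjoinRoot (poly P)) (a j i)) := ha.map
    obtain ⟨hk, σ, hσ⟩ := exists_first ha'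
    refine ⟨n, hn, hk, fun j => (fun i => algebraMap F0 (AdjoinRoot (poly P)) (a (σ j) i)), hσ, ?_⟩
    exact (sqDist_of_good ha' hdd1).reindex (Equiv.refl _) σ
  obtain ⟨h1, h2, h3, h4, h5⟩ := colsN_spec hs h h' c e 1 dd hex
  refine ⟨h1, h2, h4, h3, ?_⟩
  have hlt : ∀ j : Fin (colsN (2 ^ s) P c e 1 dd).length,
      (colsN (2 ^ s) P c e 1 dd).getD j 0 < (2 ^ s) ^ (e * e) := by
    intro j
    rw [List.getD_eq_getElem _ _ j.2]
    exact h4 _ (List.getElem_mem _)
  choose a ha ha' using fun j => exists_vec F h h' (hlt j)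
  have hunit : ∀ (hk : e * e ≤ (colsN (2 ^ s) P c e 1 dd).length) (i : Fin (e * e)),
      a (Fin.castLE hk i) = Pi.single i 1 := by
    intro hk i
    funext l
    apply (isoK F h h').injective
    rw [ha', Fin.val_castLE, h3 i i.2, vec_unit hs, Pi.single_apply, Pi.single_apply]
    split_ifs
    · exact (map_one _).symm
    · exact (map_zero _).symm
  refine ⟨a, ha, ?_, hunit⟩
  have h6 : SqDist a (1 * 1) (dd * dd) := by
    apply SqDist.map (isoK F h h')
    simp only [ha']
    exact h5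
  have h7 := good_of_sqDist (by positivity) h6 (fun i => ⟨Fin.castLE h1 i, by
    rw [hunit]; simp, fun l hl => by rw [hunit, Pi.single_apply, if_neg hl]⟩)
  convert h7 using 2
  push_cast
  ring

/-- There is a constant `dd` such that the list of columns found by the search is a good code, for
all `s` divisible by `s0`, over all fields with `2 ^ s` elements. -/
theorem cols_good {F0 : Type} [Field F0] [Fintype F0] {s0 : ℕ} (hF0 : Fintype.card F0 = 2 ^ s0)
    {θ : ℝ} (hθ : θ < 1) {c : ℕ}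
    (hcode : ∀ k, 1 ≤ k → ∃ n ≤ c * k, ∃ a : Fin n → Fin k → F0, H321.Good θ a) :
    ∃ dd : ℕ, 1 ≤ dd ∧ ∀ s, s0 ∣ s → 1 ≤ s → ∀ (K : Type) [Field K] (F : FN s (findP (2 ^ s)) K)
      (e : ℕ), 1 ≤ e →
      e * e ≤ (colsN (2 ^ s) (findP (2 ^ s)) c e 1 dd).length ∧
      (colsN (2 ^ s) (findP (2 ^ s)) c e 1 dd).length ≤ (c * e) * (c * e) ∧
      (∀ x ∈ colsN (2 ^ s) (findP (2 ^ s)) c e 1 dd, x < (2 ^ s) ^ (e * e)) ∧
      (∀ i < e * e, (colsN (2 ^ s) (findP (2 ^ s)) c e 1 dd).getD i 0 = (2 ^ s) ^ i) ∧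
      ∃ a : Fin (colsN (2 ^ s) (findP (2 ^ s)) c e 1 dd).length → Fin (e * e) → K,
        (∀ j : Fin (colsN (2 ^ s) (findP (2 ^ s)) c e 1 dd).length,
          F.num (a j) = (colsN (2 ^ s) (findP (2 ^ s)) c e 1 dd).getD j 0) ∧
        H321.Good (1 - 1 / ((dd : ℝ) * dd)) a ∧
        ∀ (hk : e * e ≤ (colsN (2 ^ s) (findP (2 ^ s)) c e 1 dd).length) (i : Fin (e * e)),
          a (Fin.castLE hk i) = Pi.single i 1 := by
  obtain ⟨dd, hdd⟩ := exists_nat_ge (1 / (1 - θ))
  have hpos : 0 < 1 - θ := by linarith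
  have hdd1 : 1 ≤ (1 - θ) * ((dd + 1 : ℕ) : ℝ) := by
    rw [div_le_iff₀ hpos] at hdd
    push_cast
    nlinarith
  refine ⟨dd + 1, by omega, fun s hs0s hs K _ F e he => ?_⟩
  obtain ⟨h, h', hg⟩ := findP_spec (s := s) hs
  exact cols_good_aux hF0 hdd1 (by omega) hcode hs0s hs h h' (irreducible hs h h' hg) K F e he

end Vale.Agent.P318.H110
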