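import Vale.Agent.P318.H110.SearchDefs
import Vale.Agent.P318.NPH.PTGraph

/-!
The search of the inner code and the tensor square are computable in polynomial time (when the
number of the candidates is polynomial).
-/

namespace Vale.Agent.P318.H110

open Vale.Agent.P318.NPH Vale.Agent.Lib.PolyTime

variable {A : Set Word} {α β γ : Type*} [Enc α] [Enc β] [Enc γ]

theorem PT_filterRange {k : α → ℕ} {f : α → ℕ → Bool} (hk : PT A k) (hkb : PBd k)
    (hf : PT A (fun p : α × ℕ => f p.1 (min p.2 (k p.1)))) :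
    PT A (fun a => (List.range (k a)).filter (f a)) := by
  refine (PT.filter (f := fun a j => f a (min j (k a))) (PT.range hk hkb) hf).congr fun a => ?_
  apply List.filter_congr
  intro j hj
  rw [min_eq_left (List.mem_range.1 hj).le]

theorem PT_allRange {k : α → ℕ} {f : α → ℕ → Bool} (hk : PT A k) (hkb : PBd k)
    (hf : PT A (fun p : α × ℕ => f p.1 (min p.2 (k p.1)))) :
    PT A (fun a => (List.range (k a)).all (f a)) := by
  refine (PT.all (f := fun a j => f a (min j (k a))) (PT.range hk hkb) hf).congr fun a => ?_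
  rw [Bool.eq_iff_iff]
  simp only [List.all_eq_true, List.mem_range]
  refine forall₂_congr fun j hj => ?_
  rw [min_eq_left hj.le]

theorem PT_dig {b X j : α → ℕ} (hb : PT A b) (hX : PT A X) (hj : PT A j) (hjb : PBd j) :
    PT A (fun x => dig (b x) (X x) (j x)) := by
  unfold dig
  exact PT.mod (PT.div hX (PT.pow hb hj hjb)) hb

theorem xsum_lt' {L : ℕ} {l : List ℕ} (h : ∀ x ∈ l, x < 2 ^ L) : xsum l < 2 ^ L := by
  induction l with
  | nil => exact Nat.two_pow_pos L
  | cons a l ih =>
    exact Nat.xor_lt_two_pow (h a List.mem_cons_self) (ih fun x hx => h x (List.mem_cons_of_mem _ hx))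

theorem PT_xsum {l : α → List ℕ} (hl : PT A l) : PT A (fun x => xsum (l x)) := by
  unfold xsum
  refine PT.foldr (init := fun _ => 0) (f := fun _ a b => a ^^^ b) hl (PT.const 0)
    (PT.natXor PT.snd'.fst PT.snd'.snd) hl.pbd fun x i => ?_
  have h1 : xsum ((l x).drop i) < 2 ^ esize (l x) := by
    apply xsum_lt'
    intro y hy
    refine (lt_two_pow_esize y).trans_le (Nat.pow_le_pow_right (by norm_num) ?_)
    exact (esize_le_of_mem hy).trans (esize_drop_le _ _)
  exact esize_nat_le h1

section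

variable {q P e n c dn dd X M a b t : α → ℕ}

theorem PT_quadN (hq : PT A q) (hP : PT A P) (he : PT A e) (heb : PBd e) (hM : PT A M)
    (ha : PT A a) : PT A (fun x => quadN (q x) (P x) (e x) (M x) (a x)) := by
  unfold quadN
  refine PT_xsum (PT_mapRange he heb (PT_xsum ?_))
  refine PT_mapRange (k := fun p : α × ℕ => e p.1)
    (f := fun p l => mulN (q p.1) (P p.1) (dig (q p.1) (M p.1) (min p.2 (e p.1) + e p.1 * l))
      (mulN (q p.1) (P p.1) (dig (q p.1) (a p.1) (min p.2 (e p.1))) (dig (q p.1) (a p.1) l)))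
    (he.comp PT.fst') (PBd.fst heb) ?_
  have c1 : PT A (fun p : (α × ℕ) × ℕ => p.1.1) := PT.fst'.fst
  have hi : PT A (fun p : (α × ℕ) × ℕ => min p.1.2 (e p.1.1)) :=
    PT.min PT.fst'.snd (he.comp c1)
  have hl : PT A (fun p : (α × ℕ) × ℕ => min p.2 (e p.1.1)) := PT.min PT.snd' (he.comp c1)
  have heb' : PBd (fun p : (α × ℕ) × ℕ => e p.1.1) := PBd.fst (PBd.fst heb)
  have hib : PBd (fun p : (α × ℕ) × ℕ => min p.1.2 (e p.1.1)) :=
    heb'.mono fun _ => min_le_right _ _
  have hlb : PBd (fun p : (α × ℕ) × ℕ => min p.2 (e p.1.1)) :=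
    heb'.mono fun _ => min_le_right _ _
  have hq' := hq.comp c1
  refine PT_mulN hq' (hP.comp c1)
    (PT_dig hq' (hM.comp c1) (hi.add ((he.comp c1).mul hl)) (hib.add (heb'.mul hlb))) ?_
  exact PT_mulN hq' (hP.comp c1) (PT_dig hq' (ha.comp c1) hi hib) (PT_dig hq' (ha.comp c1) hl hlb)

theorem PT_wtN (hq : PT A q) (hP : PT A P) (he : PT A e) (heb : PBd e) (hn : PT A n)
    (hnb : PBd n) (hX : PT A X) (hM : PT A M) :
    PT A (fun x => wtN (q x) (P x) (e x) (n x) (X x) (M x)) := by
  unfold wtN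
  refine (PT_filterRange hn hnb ?_).length
  refine (PT.eqNat (PT_quadN (hq.comp PT.fst') (hP.comp PT.fst') (he.comp PT.fst') (PBd.fst heb)
    (hM.comp PT.fst') ?_) (PT.const 0)).not
  exact PT_dig (PT.pow (hq.comp PT.fst') (he.comp PT.fst') (PBd.fst heb)) (hX.comp PT.fst')
    (PT_run hn) (PBd_run hnb)

theorem PT_sysOk (hq : PT A q) (he : PT A e) (heb : PBd e) (hX : PT A X) :
    PT A (fun x => sysOk (q x) (e x) (X x)) := by
  unfold sysOk
  refine PT_allRange he heb (PT.eqNat ?_ ?_)
  · exact PT_dig (PT.pow (hq.comp PT.fst') (he.comp PT.fst') (PBd.fst heb)) (hX.comp PT.fst')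
      (PT_run he) (PBd_run heb)
  · exact PT.pow (hq.comp PT.fst') (PT_run he) (PBd_run heb)

theorem PT_distOk (hq : PT A q) (hP : PT A P) (he : PT A e) (heb : PBd e) (hn : PT A n)
    (hnb : PBd n) (hX : PT A X) (hdn : PT A dn) (hdd : PT A dd)
    (hb : PBd (fun x => q x ^ (e x * e x))) :
    PT A (fun x => distOk (q x) (P x) (e x) (n x) (X x) (dn x) (dd x)) := by
  unfold distOk
  have hw : PT A (fun p : α × ℕ => wtN (q p.1) (P p.1) (e p.1) (n p.1) (X p.1) p.2) :=
    PT_wtN (hq.comp PT.fst') (hP.comp PT.fst') (he.comp PT.fst') (PBd.fst heb) (hn.comp PT.fst')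
      (PBd.fst hnb) (hX.comp PT.fst') PT.snd'
  refine PT.all (PT.range (PT.pow hq (he.mul he) (heb.mul heb)) hb) (PT.or ?_ ?_)
  · exact PT.eqNat hw (PT.const 0)
  · exact PT.le ((hdn.comp PT.fst').mul (hn.comp PT.fst')) ((hdd.comp PT.fst').mul hw)

theorem PT_candOk (hq : PT A q) (hP : PT A P) (hc : PT A c) (hcb : PBd c) (he : PT A e)
    (heb : PBd e) (hdn : PT A dn) (hdd : PT A dd) (ht : PT A t)
    (hb : PBd (fun x => q x ^ (e x * e x))) :
    PT A (fun x => candOk (q x) (P x) (c x) (e x) (dn x) (dd x) (t x)) := by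
  unfold candOk
  have h1 : PT A (fun x => c x * e x + 1) := (hc.mul he).add (PT.const 1)
  have h1b : PBd (fun x => t x % (c x * e x + 1)) :=
    ((hcb.mul heb).add (PBd.const 1)).mono fun x => (Nat.mod_lt _ (Nat.succ_pos _)).le
  have hn := PT.mod ht h1
  have hX := PT.div ht h1
  exact PT.and (PT.le he hn) (PT.and (PT_sysOk hq he heb hX)
    (PT_distOk hq hP he heb hn h1b hX hdn hdd hb))

theorem PT_searchN (hq : PT A q) (hP : PT A P) (hc : PT A c) (hcb : PBd c) (he : PT A e)
    (heb : PBd e) (hdn : PT A dn) (hdd : PT A dd)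
    (hb : PBd (fun x => q x ^ (e x * e x))) (hb' : PBd (fun x => q x ^ (e x * (c x * e x)))) :
    PT A (fun x => searchN (q x) (P x) (c x) (e x) (dn x) (dd x)) := by
  unfold searchN
  refine PT.optGetD (PT.find? (f := fun x t => candOk (q x) (P x) (c x) (e x) (dn x) (dd x) t)
    (PT.range ((PT.pow hq (he.mul (hc.mul he)) (heb.mul (hcb.mul heb))).mul
      ((hc.mul he).add (PT.const 1))) (hb'.mul ((hcb.mul heb).add (PBd.const 1)))) ?_)
    (PT.const 0)
  exact PT_candOk (hq.comp PT.fst') (hP.comp PT.fst') (hc.comp PT.fst') (PBd.fst hcb)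
    (he.comp PT.fst') (PBd.fst heb) (hdn.comp PT.fst') (hdd.comp PT.fst') PT.snd' (PBd.fst hb)

theorem PT_tensN (hq : PT A q) (hP : PT A P) (he : PT A e) (heb : PBd e) (ha : PT A a)
    (hb : PT A b) : PT A (fun x => tensN (q x) (P x) (e x) (a x) (b x)) := by
  unfold tensN
  refine PT.sum (PT_mapRange (he.mul he) (heb.mul heb) ?_)
  have hr : PT A (fun p : α × ℕ => min p.2 (e p.1 * e p.1)) := PT_run (he.mul he)
  have hrb : PBd (fun p : α × ℕ => min p.2 (e p.1 * e p.1)) := PBd_run (heb.mul heb)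
  refine PT.mul (PT_mulN (hq.comp PT.fst') (hP.comp PT.fst') ?_ ?_)
    (PT.pow (hq.comp PT.fst') hr hrb)
  · exact PT_dig (hq.comp PT.fst') (ha.comp PT.fst') (hr.mod (he.comp PT.fst'))
      (hrb.mono fun _ => Nat.mod_le _ _)
  · exact PT_dig (hq.comp PT.fst') (hb.comp PT.fst') (hr.div (he.comp PT.fst'))
      (hrb.mono fun _ => Nat.div_le_self _ _)

theorem PT_squareN (hq : PT A q) (hP : PT A P) (he : PT A e) (heb : PBd e) (hn : PT A n)
    (hnb : PBd n) (hX : PT A X) :
    PT A (fun x => squareN (q x) (P x) (e x) (n x) (X x)) := by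
  unfold squareN
  refine PT.append (PT_mapRange (he.mul he) (heb.mul heb)
    (PT.pow (hq.comp PT.fst') (PT_run (he.mul he)) (PBd_run (heb.mul heb)))) ?_
  have key : PT A (fun x => ((List.range (n x * n x)).filter fun p =>
      !(decide (p % n x < e x) && decide (p / n x < e x))).map fun p =>
      tensN (q x) (P x) (e x)
        (dig (q x ^ e x) (X x) (min p (n x * n x) % n x))
        (dig (q x ^ e x) (X x) (min p (n x * n x) / n x))) := by
    refine PT.map (f := fun x p => tensN (q x) (P x) (e x)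
        (dig (q x ^ e x) (X x) (min p (n x * n x) % n x))
        (dig (q x ^ e x) (X x) (min p (n x * n x) / n x)))
      (PT.filter (f := fun x p => !(decide (p % n x < e x) && decide (p / n x < e x)))
        (PT.range (hn.mul hn) (hnb.mul hnb)) ?_) ?_
    · exact (PT.and (PT.lt (PT.mod PT.snd' (hn.comp PT.fst')) (he.comp PT.fst'))
        (PT.lt (PT.div PT.snd' (hn.comp PT.fst')) (he.comp PT.fst'))).not
    · have hr : PT A (fun p : α × ℕ => min p.2 (n p.1 * n p.1)) := PT_run (hn.mul hn)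
      have hrb : PBd (fun p : α × ℕ => min p.2 (n p.1 * n p.1)) := PBd_run (hnb.mul hnb)
      have hqe : PT A (fun p : α × ℕ => q p.1 ^ e p.1) :=
        PT.pow (hq.comp PT.fst') (he.comp PT.fst') (PBd.fst heb)
      exact PT_tensN (hq.comp PT.fst') (hP.comp PT.fst') (he.comp PT.fst') (PBd.fst heb)
        (PT_dig hqe (hX.comp PT.fst') (hr.mod (hn.comp PT.fst'))
          (hrb.mono fun _ => Nat.mod_le _ _))
        (PT_dig hqe (hX.comp PT.fst') (hr.div (hn.comp PT.fst'))
          (hrb.mono fun _ => Nat.div_le_self _ _))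
  refine key.congr fun x => ?_
  apply List.map_congr_left
  intro p hp
  have hp' := List.mem_range.1 (List.mem_of_mem_filter hp)
  rw [min_eq_left hp'.le]

/-- The list of the columns is computable in polynomial time. -/
theorem PT_colsN (hq : PT A q) (hP : PT A P) (hc : PT A c) (hcb : PBd c) (he : PT A e)
    (heb : PBd e) (hdn : PT A dn) (hdd : PT A dd)
    (hb : PBd (fun x => q x ^ (e x * e x))) (hb' : PBd (fun x => q x ^ (e x * (c x * e x)))) :
    PT A (fun x => colsN (q x) (P x) (c x) (e x) (dn x) (dd x)) := by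
  unfold colsN
  have hs := PT_searchN hq hP hc hcb he heb hdn hdd hb hb'
  have h1 : PT A (fun x => c x * e x + 1) := (hc.mul he).add (PT.const 1)
  exact PT_squareN hq hP he heb (PT.mod hs h1)
    (((hcb.mul heb).add (PBd.const 1)).mono fun x => (Nat.mod_lt _ (Nat.succ_pos _)).le)
    (PT.div hs h1)

end

end Vale.Agent.P318.H110
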