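import Vale.Agent.P318.H110.DetN
import Vale.Agent.P318.H110.SearchPT

/-!
The determinant of `DetN` is computable in polynomial time.
-/

namespace Vale.Agent.P318.H110

open Vale.Agent.P318.NPH Vale.Agent.Lib.PolyTime

variable {A : Set Word} {α β γ : Type*} [Enc α] [Enc β] [Enc γ]

theorem mulN_size (q P a b L : ℕ) (ha : a < 2 ^ L) (hP : P < 2 ^ L) :
    esize (mulN q P a b) ≤ L + esize b := by
  have h1 := mul_size q P a b.bits L ha hP
  have h2 := esize_nat_le h1
  have h3 : b.bits.length = esize b := rfl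
  rw [h3] at h2
  exact h2

theorem xprod_size (q P L : ℕ) (hP : P < 2 ^ L) (l : List ℕ) (hl : ∀ x ∈ l, x < 2 ^ L) :
    esize (xprod q P l) ≤ L * l.length + 1 := by
  induction l with
  | nil =>
    have h1 : esize (1 : ℕ) ≤ 1 := esize_nat_le_self 1
    show esize (1 : ℕ) ≤ L * 0 + 1
    omega
  | cons a l ih =>
    have h1 := ih fun x hx => hl x (List.mem_cons_of_mem _ hx)
    have h2 := mulN_size q P a (xprod q P l) L (hl a List.mem_cons_self) hP
    have h3 : xprod q P (a :: l) = mulN q P a (xprod q P l) := rfl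
    rw [h3, List.length_cons, mul_add, mul_one]
    omega

theorem PT_xprod {q P : α → ℕ} {l : α → List ℕ} (hq : PT A q) (hP : PT A P) (hl : PT A l) :
    PT A (fun x => xprod (q x) (P x) (l x)) := by
  unfold xprod
  refine PT.foldr (init := fun _ => 1) (f := fun x a b => mulN (q x) (P x) a b)
    (b := fun x => (esize (l x) + esize (P x)) * esize (l x) + 1) hl (PT.const 1)
    (PT_mulN (hq.comp PT.fst') (hP.comp PT.fst') PT.snd'.fst PT.snd'.snd)
    (((hl.pbd.add hP.pbd).mul hl.pbd).add (PBd.const 1)) fun x i => ?_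
  have h1 := xprod_size (q x) (P x) (esize (l x) + esize (P x))
    ((lt_two_pow_esize (P x)).trans_le (Nat.pow_le_pow_right (by norm_num) (by omega)))
    ((l x).drop i) (by
      intro y hy
      refine (lt_two_pow_esize y).trans_le (Nat.pow_le_pow_right (by norm_num) ?_)
      have := (esize_le_of_mem hy).trans (esize_drop_le _ _)
      omega)
  refine h1.trans (Nat.add_le_add_right (Nat.mul_le_mul_left _ ?_) 1)
  exact (length_le_esize _).trans (esize_drop_le _ _)

section

variable {q P k x z i l : α → ℕ} {cols : α → List ℕ}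

theorem PT_entN (hq : PT A q) (hP : PT A P) (hc : PT A cols) (hx : PT A x) (hi : PT A i)
    (hib : PBd i) (hl : PT A l) (hlb : PBd l) :
    PT A (fun y => entN (q y) (P y) (cols y) (x y) (i y) (l y)) := by
  unfold entN
  refine PT_xsum (PT_mapRange hc.length (PBd.length hc) ?_)
  have hj : PT A (fun p : α × ℕ => min p.2 (cols p.1).length) := PT_run hc.length
  have hjb : PBd (fun p : α × ℕ => min p.2 (cols p.1).length) := PBd_run (PBd.length hc)
  have hq' : PT A (fun p : α × ℕ => q p.1) := hq.comp PT.fst'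
  have hg : PT A (fun p : α × ℕ => (cols p.1).getD (min p.2 (cols p.1).length) 0) :=
    PT.getD (hc.comp PT.fst') hj (PT.const 0)
  exact PT_mulN hq' (hP.comp PT.fst') (PT_dig hq' (hx.comp PT.fst') hj hjb)
    (PT_mulN hq' (hP.comp PT.fst') (PT_dig hq' hg (hi.comp PT.fst') (PBd.fst hib))
      (PT_dig hq' hg (hl.comp PT.fst') (PBd.fst hlb)))

theorem PT_entZ (hq : PT A q) (hP : PT A P) (hc : PT A cols) (hx : PT A x) (hz : PT A z)
    (hi : PT A i) (hib : PBd i) (hl : PT A l) (hlb : PBd l) :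
    PT A (fun y => entZ (q y) (P y) (cols y) (x y) (z y) (i y) (l y)) := by
  unfold entZ
  refine PT.natXor (PT_entN hq hP hc hx hi hib hl hlb)
    (PT.ite (PT.decide_and (PT.eqNat hi hl) ?_) (PT.const 1) (PT.const 0))
  refine ((PT.testBit hz hi).not).congr fun y => ?_
  cases (z y).testBit (i y) <;> rfl

theorem PT_deltaN (hq : PT A q) (hP : PT A P) (hk : PT A k) (hkb : PBd k) (hc : PT A cols)
    (hx : PT A x) (hz : PT A z) (h2 : PBd (fun y => 2 ^ k y)) :
    PT A (fun y => deltaN (q y) (P y) (k y) (cols y) (x y) (z y)) := by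
  unfold deltaN
  refine PT_xsum ?_
  refine PT.map (f := fun y S => xprod (q y) (P y) ((List.range (k y)).map fun i =>
    xsum ((List.range (k y)).map fun l => if S.testBit l = true then
      entZ (q y) (P y) (cols y) (x y) (z y) i l else 0)))
    (PT.range (PT_two_pow hk hkb) h2) ?_
  refine PT_xprod (hq.comp PT.fst') (hP.comp PT.fst') ?_
  refine PT_mapRange (k := fun p : α × ℕ => k p.1)
    (f := fun p i => xsum ((List.range (k p.1)).map fun l => if p.2.testBit l = true then
      entZ (q p.1) (P p.1) (cols p.1) (x p.1) (z p.1) i l else 0))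
    (hk.comp PT.fst') (PBd.fst hkb) ?_
  refine PT_xsum ?_
  refine PT_mapRange (k := fun p : (α × ℕ) × ℕ => k p.1.1)
    (f := fun p l => if p.1.2.testBit l = true then
      entZ (q p.1.1) (P p.1.1) (cols p.1.1) (x p.1.1) (z p.1.1) (min p.2 (k p.1.1)) l else 0)
    (hk.comp PT.fst'.fst) (PBd.fst (PBd.fst hkb)) ?_
  have c1 : PT A (fun p : ((α × ℕ) × ℕ) × ℕ => p.1.1.1) := PT.fst'.fst.fst
  have hkb' : PBd (fun p : ((α × ℕ) × ℕ) × ℕ => k p.1.1.1) := PBd.fst (PBd.fst (PBd.fst hkb))
  have hi : PT A (fun p : ((α × ℕ) × ℕ) × ℕ => min p.1.2 (k p.1.1.1)) :=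
    PT.min PT.fst'.snd (hk.comp c1)
  have hib : PBd (fun p : ((α × ℕ) × ℕ) × ℕ => min p.1.2 (k p.1.1.1)) :=
    hkb'.mono fun _ => min_le_right _ _
  have hl : PT A (fun p : ((α × ℕ) × ℕ) × ℕ => min p.2 (k p.1.1.1)) :=
    PT.min PT.snd' (hk.comp c1)
  have hlb : PBd (fun p : ((α × ℕ) × ℕ) × ℕ => min p.2 (k p.1.1.1)) :=
    hkb'.mono fun _ => min_le_right _ _
  refine PT.ite (p := fun p : ((α × ℕ) × ℕ) × ℕ =>
    p.1.1.2.testBit (min p.2 (k p.1.1.1)) = true) ?_ ?_ (PT.const 0)
  · refine (PT.testBit PT.fst'.fst.snd hl).congr fun p => ?_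
    simp
  · exact PT_entZ (hq.comp c1) (hP.comp c1) (hc.comp c1) (hx.comp c1) (hz.comp c1) hi hib hl hlb

end

end Vale.Agent.P318.H110
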