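import Vale.Agent.P318.H110.DetPT

/-!
The list of the vectors `x` with `∑ j, x_j • a_j a_jᵀ = 0`, on natural numbers.
-/

namespace Vale.Agent.P318.H110

open Vale.Agent.P318.NPH Vale.Agent.Lib.PolyTime

/-- All entries of the matrix of `x` vanish. -/
def isKer (q P k : ℕ) (cols : List ℕ) (x : ℕ) : Bool :=
  (List.range k).all fun i => (List.range k).all fun l => decide (entN q P cols x i l = 0)

/-- The vectors whose matrix vanishes. -/
def kerL (q P k : ℕ) (cols : List ℕ) : List ℕ :=
  (List.range (q ^ cols.length)).filter fun x => isKer q P k cols x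

theorem el_entN (q P k : ℕ) (cols : List ℕ) (x : ℕ) (i l : Fin k) :
    el P (entN q P cols x i l) = ∑ j : Fin cols.length, vec P q cols.length x j *
        (vec P q k (cols.getD j 0) i * vec P q k (cols.getD j 0) l) := by
  unfold entN
  rw [el_xsum_range]
  simp only [el_mulN, vec]

theorem isKer_iff {s P : ℕ} (h : 2 ^ s ≤ P) (h' : P < 2 ^ (s + 1)) (k : ℕ) (cols : List ℕ)
    (x : ℕ) : isKer (2 ^ s) P k cols x = true ↔ ∀ i l : Fin k,
      ∑ j : Fin cols.length, vec P (2 ^ s) cols.length x j *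
        (vec P (2 ^ s) k (cols.getD j 0) i * vec P (2 ^ s) k (cols.getD j 0) l) = 0 := by
  simp only [isKer, List.all_eq_true, List.mem_range, decide_eq_true_eq]
  constructor
  · intro hx i l
    rw [← el_entN, hx i i.2 l l.2, el_zero]
  · intro hx i hi l hl
    have := hx ⟨i, hi⟩ ⟨l, hl⟩
    rw [← el_entN, ← el_zero P] at this
    exact el_inj h h' (entN_lt h h' _ _ _ _) (by positivity) this

theorem mem_kerL {s P : ℕ} (h : 2 ^ s ≤ P) (h' : P < 2 ^ (s + 1)) (k : ℕ) (cols : List ℕ)
    (x : ℕ) : x ∈ kerL (2 ^ s) P k cols ↔ x < (2 ^ s) ^ cols.length ∧ ∀ i l : Fin k,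
      ∑ j : Fin cols.length, vec P (2 ^ s) cols.length x j *
        (vec P (2 ^ s) k (cols.getD j 0) i * vec P (2 ^ s) k (cols.getD j 0) l) = 0 := by
  rw [kerL, List.mem_filter, List.mem_range, isKer_iff h h']

theorem nodup_kerL (q P k : ℕ) (cols : List ℕ) : (kerL q P k cols).Nodup :=
  List.nodup_range.filter _

section

variable {A : Set Word} {α : Type*} [Enc α] {q P k x : α → ℕ} {cols : α → List ℕ}

theorem PT_isKer (hq : PT A q) (hP : PT A P) (hk : PT A k) (hkb : PBd k) (hc : PT A cols)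
    (hx : PT A x) : PT A (fun y => isKer (q y) (P y) (k y) (cols y) (x y)) := by
  unfold isKer
  refine PT_allRange hk hkb ?_
  refine PT_allRange (k := fun p : α × ℕ => k p.1)
    (f := fun p l => decide (entN (q p.1) (P p.1) (cols p.1) (x p.1) (min p.2 (k p.1)) l = 0))
    (hk.comp PT.fst') (PBd.fst hkb) ?_
  have c1 : PT A (fun p : (α × ℕ) × ℕ => p.1.1) := PT.fst'.fst
  have hkb' : PBd (fun p : (α × ℕ) × ℕ => k p.1.1) := PBd.fst (PBd.fst hkb)
  exact PT.eqNat (PT_entN (hq.comp c1) (hP.comp c1) (hc.comp c1) (hx.comp c1)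
    (PT.min PT.fst'.snd (hk.comp c1)) (hkb'.mono fun _ => min_le_right _ _)
    (PT.min PT.snd' (hk.comp c1)) (hkb'.mono fun _ => min_le_right _ _)) (PT.const 0)

theorem PT_kerL (hq : PT A q) (hP : PT A P) (hk : PT A k) (hkb : PBd k) (hc : PT A cols)
    (hb : PBd (fun y => q y ^ (cols y).length)) :
    PT A (fun y => kerL (q y) (P y) (k y) (cols y)) := by
  unfold kerL
  exact PT.filter (f := fun y x => isKer (q y) (P y) (k y) (cols y) x)
    (PT.range (PT.pow hq hc.length (PBd.length hc)) hb)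
    (PT_isKer (hq.comp PT.fst') (hP.comp PT.fst') (hk.comp PT.fst') (PBd.fst hkb)
      (hc.comp PT.fst') PT.snd')

end

end Vale.Agent.P318.H110
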