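import Vale.Agent.P318.H110.VecE
import Vale.Agent.P318.H110.Ker
import Vale.Agent.P318.H591.Dirs

/-!
The list of the directions of one block, on natural numbers.
-/

namespace Vale.Agent.P318.H110

open Vale.Agent.P318.NPH Vale.Agent.P318.H591 Vale.Agent.Lib.PolyTime

/-- The vector with one nonzero coordinate coded by `u < n * (q - 1)`. -/
def oneN (q u : ℕ) : ℕ := (u % (q - 1) + 1) * q ^ (u / (q - 1))

/-- The direction number `T`, possibly zero: `t` elementary directions and an element of the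
list `L`. -/
def dirRaw (q n t : ℕ) (L : List ℕ) (T : ℕ) : ℕ :=
  xsum ((List.range t).map fun l =>
    oneN q (T % (n * (q - 1)) ^ t / (n * (q - 1)) ^ l % (n * (q - 1)))) ^^^
    L.getD (T / (n * (q - 1)) ^ t) 0

/-- All directions. -/
def dirAll (q n t : ℕ) (L : List ℕ) : List ℕ :=
  (List.range (L.length * (n * (q - 1)) ^ t)).map fun T => dirRaw q n t L T

/-- The nonzero directions of one block. -/
def bdirL (q P k t : ℕ) (cols : List ℕ) : List ℕ :=
  (dirAll q cols.length t (kerL q P k cols)).filter fun x => !decide (x = 0)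

variable {s P : ℕ}

/-- The matrix map of the columns `cols`. -/
noncomputable def colA (P q k : ℕ) (cols : List ℕ) (j : Fin cols.length) :
    Fin k → AdjoinRoot (poly P) := vec P q k (cols.getD j 0)

section

variable [Fact (Irreducible (poly P))]

theorem mem_kerL_iff (h : 2 ^ s ≤ P) (h' : P < 2 ^ (s + 1)) (k : ℕ) (cols : List ℕ) (x : ℕ) :
    x ∈ kerL (2 ^ s) P k cols ↔ x < (2 ^ s) ^ cols.length ∧
      vec P (2 ^ s) cols.length x ∈ LinearMap.ker (pim (colA P (2 ^ s) k cols)) := by
  rw [mem_kerL h h', LinearMap.mem_ker]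
  refine and_congr_right fun _ => ?_
  constructor
  · intro hx
    funext i l
    exact hx i l
  · intro hx i l
    exact congrFun (congrFun hx i) l

/-- The list of the kernel and the kernel. -/
noncomputable def kerE (h : 2 ^ s ≤ P) (h' : P < 2 ^ (s + 1)) (k : ℕ) (cols : List ℕ) :
    Fin (kerL (2 ^ s) P k cols).length ≃ LinearMap.ker (pim (colA P (2 ^ s) k cols)) :=
  Equiv.ofBijective (fun i => ⟨vec P (2 ^ s) cols.length ((kerL (2 ^ s) P k cols).getD i 0), by
    have hi : (kerL (2 ^ s) P k cols).getD i 0 ∈ kerL (2 ^ s) P k cols := by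
      rw [List.getD_eq_getElem _ _ i.2]
      exact List.getElem_mem _
    exact ((mem_kerL_iff h h' k cols _).1 hi).2⟩) (by
    have hm : ∀ i : Fin (kerL (2 ^ s) P k cols).length,
        (kerL (2 ^ s) P k cols).getD i 0 ∈ kerL (2 ^ s) P k cols := by
      intro i
      rw [List.getD_eq_getElem _ _ i.2]
      exact List.getElem_mem _
    constructor
    · intro i j hij
      have h1 := congrArg Subtype.val hij
      simp only at h1
      have h2 := vec_inj h h' ((mem_kerL_iff h h' k cols _).1 (hm i)).1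
        ((mem_kerL_iff h h' k cols _).1 (hm j)).1 h1
      rw [List.getD_eq_getElem _ _ i.2, List.getD_eq_getElem _ _ j.2] at h2
      exact Fin.ext ((nodup_kerL _ _ _ _).getElem_inj_iff.1 h2)
    · rintro ⟨v, hv⟩
      obtain ⟨x, hx, rfl⟩ := exists_num h h' cols.length v
      have h1 : x ∈ kerL (2 ^ s) P k cols := (mem_kerL_iff h h' k cols x).2 ⟨hx, hv⟩
      obtain ⟨i, hi, hi'⟩ := List.getElem_of_mem h1
      refine ⟨⟨i, hi⟩, Subtype.ext ?_⟩
      simp only [List.getD_eq_getElem _ _ hi, hi'])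

theorem kerE_apply (h : 2 ^ s ≤ P) (h' : P < 2 ^ (s + 1)) (k : ℕ) (cols : List ℕ)
    (i : Fin (kerL (2 ^ s) P k cols).length) :
    (kerE h h' k cols i : Fin cols.length → AdjoinRoot (poly P)) =
      vec P (2 ^ s) cols.length ((kerL (2 ^ s) P k cols).getD i 0) := rfl

/-- Nonzero field elements. -/
noncomputable def unitE (hs : 1 ≤ s) (h : 2 ^ s ≤ P) (h' : P < 2 ^ (s + 1)) :
    Fin (2 ^ s - 1) ≃ {c : AdjoinRoot (poly P) // c ≠ 0} :=
  have h1 : 1 < 2 ^ s := Nat.one_lt_two_pow (by omega)
  Equiv.ofBijective (fun i => ⟨el P (i + 1), by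
    intro h0
    rw [← el_zero P] at h0
    have := el_inj h h' (by have := i.2; omega) (by positivity) h0
    omega⟩) (by
    constructor
    · intro i j hij
      have h2 := congrArg Subtype.val hij
      have h3 := el_inj h h' (by have := i.2; omega) (by have := j.2; omega) h2
      exact Fin.ext (by omega)
    · rintro ⟨c, hc⟩
      obtain ⟨n, hn, rfl⟩ := el_surj h h' c
      have hn0 : n ≠ 0 := by
        rintro rfl
        exact hc (el_zero P)
      exact ⟨⟨n - 1, by omega⟩, Subtype.ext (by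
        show el P (n - 1 + 1) = el P n
        rw [Nat.sub_add_cancel (by omega)])⟩)

theorem unitE_apply (hs : 1 ≤ s) (h : 2 ^ s ≤ P) (h' : P < 2 ^ (s + 1)) (i : Fin (2 ^ s - 1)) :
    (unitE hs h h' i : AdjoinRoot (poly P)) = el P (i + 1) := rfl

/-- Elementary directions. -/
noncomputable def oneE (hs : 1 ≤ s) (h : 2 ^ s ≤ P) (h' : P < 2 ^ (s + 1)) (n : ℕ) :
    Fin (n * (2 ^ s - 1)) ≃ {c : AdjoinRoot (poly P) // c ≠ 0} × Fin n :=
  (finProdFinEquiv.symm.trans (Equiv.prodComm _ _)).trans
    (Equiv.prodCongr (unitE hs h h') (Equiv.refl _))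

theorem vec_oneN (hs : 1 ≤ s) (h : 2 ^ s ≤ P) (h' : P < 2 ^ (s + 1)) (n : ℕ)
    (u : Fin (n * (2 ^ s - 1))) :
    vec P (2 ^ s) n (oneN (2 ^ s) u) = H591.el (oneE hs h h' n u) := by
  have h1 : 1 < 2 ^ s := Nat.one_lt_two_pow (by omega)
  have hq : 0 < 2 ^ s - 1 := by omega
  have h2 : (u : ℕ) / (2 ^ s - 1) < n := (Nat.div_lt_iff_lt_mul hq).2 u.2
  have h3 : (u : ℕ) % (2 ^ s - 1) < 2 ^ s - 1 := Nat.mod_lt _ hq
  unfold oneN
  rw [vec_mul_pow P s n (by omega) ⟨_, h2⟩]
  rfl

theorem oneN_lt (hs : 1 ≤ s) {n u : ℕ} (hu : u < n * (2 ^ s - 1)) :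
    oneN (2 ^ s) u < (2 ^ s) ^ n := by
  have h1 : 1 < 2 ^ s := Nat.one_lt_two_pow (by omega)
  have hq : 0 < 2 ^ s - 1 := by omega
  have h2 : u / (2 ^ s - 1) < n := (Nat.div_lt_iff_lt_mul hq).2 hu
  have h3 : u % (2 ^ s - 1) < 2 ^ s - 1 := Nat.mod_lt _ hq
  calc oneN (2 ^ s) u < 2 ^ s * (2 ^ s) ^ (u / (2 ^ s - 1)) :=
        Nat.mul_lt_mul_of_pos_right (by omega) (by positivity)
    _ = (2 ^ s) ^ (u / (2 ^ s - 1) + 1) := by rw [pow_succ]; ring
    _ ≤ (2 ^ s) ^ n := Nat.pow_le_pow_right (by positivity) h2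

/-- Numbers and tuples of elementary directions with an element of the kernel. -/
noncomputable def blkE (hs : 1 ≤ s) (h : 2 ^ s ≤ P) (h' : P < 2 ^ (s + 1)) (k : ℕ)
    (cols : List ℕ) (t : ℕ) :
    Fin ((kerL (2 ^ s) P k cols).length * (cols.length * (2 ^ s - 1)) ^ t) ≃
      (Fin t → {c : AdjoinRoot (poly P) // c ≠ 0} × Fin cols.length) ×
        LinearMap.ker (pim (colA P (2 ^ s) k cols)) :=
  (finProdFinEquiv.symm.trans (Equiv.prodComm _ _)).trans
    (Equiv.prodCongr (finFunctionFinEquiv.symm.trans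
      ((Equiv.refl (Fin t)).arrowCongr (oneE hs h h' cols.length))) (kerE h h' k cols))

theorem vec_dirRaw (hs : 1 ≤ s) (h : 2 ^ s ≤ P) (h' : P < 2 ^ (s + 1)) (k : ℕ)
    (cols : List ℕ) (t : ℕ)
    (T : Fin ((kerL (2 ^ s) P k cols).length * (cols.length * (2 ^ s - 1)) ^ t)) :
    vec P (2 ^ s) cols.length (dirRaw (2 ^ s) cols.length t (kerL (2 ^ s) P k cols) T) =
      blk (LinearMap.ker (pim (colA P (2 ^ s) k cols))) t (blkE hs h h' k cols t T) := by
  unfold dirRaw blk
  rw [vec_xor, vec_xsum_range]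
  congr 1
  refine Finset.sum_congr rfl fun l _ => ?_
  have h1 := vec_oneN hs h h' cols.length (finFunctionFinEquiv.symm (finProdFinEquiv.symm T).2 l)
  rw [finFunctionFinEquiv_symm_apply_val] at h1
  exact h1

omit [Fact (Irreducible (poly P))] in
theorem dirRaw_lt (hs : 1 ≤ s) (h : 2 ^ s ≤ P) (h' : P < 2 ^ (s + 1)) (k : ℕ)
    (cols : List ℕ) (t T : ℕ)
    (hT : T < (kerL (2 ^ s) P k cols).length * (cols.length * (2 ^ s - 1)) ^ t) :
    dirRaw (2 ^ s) cols.length t (kerL (2 ^ s) P k cols) T < (2 ^ s) ^ cols.length := by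
  unfold dirRaw
  apply xor_lt_pow
  · apply xsum_lt_pow
    intro x hx
    obtain ⟨l, hl, rfl⟩ := List.mem_map.1 hx
    apply oneN_lt hs
    apply Nat.mod_lt
    rcases Nat.eq_zero_or_pos (cols.length * (2 ^ s - 1)) with h0 | h0
    · rw [h0, zero_pow (by have := List.mem_range.1 hl; omega)] at hT
      omega
    · exact h0
  · by_cases h1 : T / (cols.length * (2 ^ s - 1)) ^ t < (kerL (2 ^ s) P k cols).length
    · rw [List.getD_eq_getElem _ _ h1]
      exact ((mem_kerL h h' k cols _).1 (List.getElem_mem _)).1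
    · rw [List.getD_eq_default _ _ (by omega)]
      positivity

theorem bdirL_lt (hs : 1 ≤ s) (h : 2 ^ s ≤ P) (h' : P < 2 ^ (s + 1)) (k : ℕ)
    (cols : List ℕ) (t : ℕ) : ∀ x ∈ bdirL (2 ^ s) P k t cols, x < (2 ^ s) ^ cols.length := by
  intro x hx
  obtain ⟨T, hT, rfl⟩ := List.mem_map.1 (List.mem_of_mem_filter hx)
  exact dirRaw_lt hs h h' k cols t T (List.mem_range.1 hT)

theorem bdirL_ne_zero (q P k t : ℕ) (cols : List ℕ) : ∀ x ∈ bdirL q P k t cols, x ≠ 0 := by
  intro x hx
  simpa using (List.mem_filter.1 hx).2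

/-- The list of the directions and the family of the directions. -/
theorem exists_bdir_equiv (hs : 1 ≤ s) (h : 2 ^ s ≤ P) (h' : P < 2 ^ (s + 1)) (k : ℕ)
    (cols : List ℕ) (t : ℕ) [Fintype (BIx (LinearMap.ker (pim (colA P (2 ^ s) k cols))) t)] :
    ∃ e : Fin (bdirL (2 ^ s) P k t cols).length ≃
        BIx (LinearMap.ker (pim (colA P (2 ^ s) k cols))) t,
      ∀ i : Fin (bdirL (2 ^ s) P k t cols).length,
        vec P (2 ^ s) cols.length ((bdirL (2 ^ s) P k t cols).getD i 0) =
          bdir (LinearMap.ker (pim (colA P (2 ^ s) k cols))) t (e i) := by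
  classical
  set N := LinearMap.ker (pim (colA P (2 ^ s) k cols)) with hN
  let ft : Fintype ((Fin t → {c : AdjoinRoot (poly P) // c ≠ 0} × Fin cols.length) × N) :=
    Fintype.ofEquiv _ (blkE hs h h' k cols t)
  apply exists_equiv_of_map_eq
  -- all directions
  have h1 : (dirAll (2 ^ s) cols.length t (kerL (2 ^ s) P k cols)).map
      (vec P (2 ^ s) cols.length) =
      (List.finRange ((kerL (2 ^ s) P k cols).length * (cols.length * (2 ^ s - 1)) ^ t)).map
        (fun T => blk N t (blkE hs h h' k cols t T)) := by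
    unfold dirAll
    rw [List.map_map]
    conv_lhs => rw [← List.map_coe_finRange_eq_range, List.map_map]
    apply List.map_congr_left
    intro T _
    exact vec_dirRaw hs h h' k cols t T
  have h2 : Multiset.map (vec P (2 ^ s) cols.length)
      ((dirAll (2 ^ s) cols.length t (kerL (2 ^ s) P k cols) : List ℕ) : Multiset ℕ) =
      Multiset.map (blk N t) Finset.univ.val := by
    rw [Multiset.map_coe, h1]
    have h3 : (Finset.univ : Finset ((Fin t → {c : AdjoinRoot (poly P) // c ≠ 0} ×
        Fin cols.length) × N)).val = Multiset.map (blkE hs h h' k cols t)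
        (Finset.univ : Finset (Fin _)).val := by
      have := congrArg Finset.val (Finset.map_univ_equiv (blkE hs h h' k cols t))
      rw [← this]
      rfl
    rw [h3, Multiset.map_map]
    rfl
  -- the nonzero ones
  have h4 : Multiset.map (bdir N t) (Finset.univ : Finset (BIx N t)).val =
      Multiset.filter (fun v => v ≠ 0) (Multiset.map (blk N t) Finset.univ.val) := by
    rw [Multiset.filter_map]
    have h5 : Multiset.map (Subtype.val : BIx N t → _) (Finset.univ : Finset (BIx N t)).val =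
        Multiset.filter ((fun v => v ≠ 0) ∘ blk N t) Finset.univ.val := by
      have h6 : (Finset.univ : Finset (BIx N t)).map ⟨Subtype.val, Subtype.val_injective⟩ =
          Finset.univ.filter fun p => blk N t p ≠ 0 := by
        ext p
        simp
      exact congrArg Finset.val h6
    rw [← h5, Multiset.map_map]
    rfl
  rw [h4, ← h2, Multiset.filter_map]
  have h7 : ((bdirL (2 ^ s) P k t cols : List ℕ) : Multiset ℕ) =
      Multiset.filter ((fun v => v ≠ 0) ∘ vec P (2 ^ s) cols.length)
        ((dirAll (2 ^ s) cols.length t (kerL (2 ^ s) P k cols) : List ℕ) : Multiset ℕ) := by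
    rw [Multiset.filter_coe]
    congr 1
    unfold bdirL
    apply List.filter_congr
    intro x hx
    obtain ⟨T, hT, rfl⟩ := List.mem_map.1 hx
    have := vec_eq_zero h h' (dirRaw_lt hs h h' k cols t T (List.mem_range.1 hT))
    simp only [Function.comp, ne_eq, this, decide_not]
  rw [h7]

end

/-! ### Polynomial time -/

section

variable {A : Set Word} {α : Type*} [Enc α] {q P k : α → ℕ} {cols : α → List ℕ}

theorem PT_oneN {u n : α → ℕ} (hq : PT A q) (hu : PT A u) (hn : PBd n)
    (h : ∀ y, u y / (q y - 1) ≤ n y) : PT A (fun y => oneN (q y) (u y)) := by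
  unfold oneN
  have hq1 : PT A (fun y => q y - 1) := hq.sub (PT.const 1)
  exact PT.mul ((hu.mod hq1).add (PT.const 1)) (PT.pow hq (hu.div hq1) (hn.mono h))

theorem PT_bdirL (hq : PT A q) (hqb : PBd q) (hP : PT A P) (hk : PT A k) (hkb : PBd k)
    (hc : PT A cols) (hb : PBd (fun y => q y ^ (cols y).length)) (t : ℕ) :
    PT A (fun y => bdirL (q y) (P y) (k y) t (cols y)) := by
  unfold bdirL
  refine PT.filter (f := fun _ x => !decide (x = 0)) ?_ (PT.eqNat PT.snd' (PT.const 0)).not
  unfold dirAll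
  have hK := PT_kerL hq hP hk hkb hc hb
  have hm : PT A (fun y => (cols y).length * (q y - 1)) := hc.length.mul (hq.sub (PT.const 1))
  have hmb : PBd (fun y => (cols y).length * (q y - 1)) :=
    (PBd.length hc).mul (PBd.sub hqb _)
  have hmt : PT A (fun y => ((cols y).length * (q y - 1)) ^ t) := hm.powConst t
  have hm' : PT A (fun p : α × ℕ => (cols p.1).length * (q p.1 - 1)) := hm.comp PT.fst'
  have hmt' : PT A (fun p : α × ℕ => ((cols p.1).length * (q p.1 - 1)) ^ t) := hmt.comp PT.fst'
  have key : PT A (fun y => (List.range ((kerL (q y) (P y) (k y) (cols y)).length *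
      ((cols y).length * (q y - 1)) ^ t)).map fun T =>
        xsum ((List.range t).map fun l => oneN (q y)
          (min (T % ((cols y).length * (q y - 1)) ^ t / ((cols y).length * (q y - 1)) ^ (min l t) %
            ((cols y).length * (q y - 1))) ((cols y).length * (q y - 1)))) ^^^
          (kerL (q y) (P y) (k y) (cols y)).getD
            (T / ((cols y).length * (q y - 1)) ^ t) 0) := by
    refine PT.map (f := fun y T => xsum ((List.range t).map fun l => oneN (q y)
          (min (T % ((cols y).length * (q y - 1)) ^ t / ((cols y).length * (q y - 1)) ^ (min l t) %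
            ((cols y).length * (q y - 1))) ((cols y).length * (q y - 1)))) ^^^
          (kerL (q y) (P y) (k y) (cols y)).getD
            (T / ((cols y).length * (q y - 1)) ^ t) 0)
      (PT.range (hK.length.mul hmt) ((PBd.length hK).mul (hmb.pow t))) ?_
    refine PT.natXor (PT_xsum ?_) (PT.getD (hK.comp PT.fst') (PT.snd'.div hmt') (PT.const 0))
    refine PT.map (f := fun (p : α × ℕ) l => oneN (q p.1)
      (min (p.2 % ((cols p.1).length * (q p.1 - 1)) ^ t /
        ((cols p.1).length * (q p.1 - 1)) ^ (min l t) %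
        ((cols p.1).length * (q p.1 - 1))) ((cols p.1).length * (q p.1 - 1))))
      (PT.const (List.range t)) ?_
    have c1 : PT A (fun p : (α × ℕ) × ℕ => p.1.1) := PT.fst'.fst
    have hm2 : PT A (fun p : (α × ℕ) × ℕ => (cols p.1.1).length * (q p.1.1 - 1)) := hm.comp c1
    have hmb2 : PBd (fun p : (α × ℕ) × ℕ => (cols p.1.1).length * (q p.1.1 - 1)) :=
      PBd.fst (PBd.fst hmb)
    refine PT_oneN (n := fun p : (α × ℕ) × ℕ => (cols p.1.1).length * (q p.1.1 - 1))
      (hq.comp c1) (PT.min (PT.mod (PT.div (PT.mod PT.fst'.snd (hmt.comp c1))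
      (PT.pow hm2 (PT.min PT.snd' (PT.const t)) ((PBd.const t).mono fun _ => min_le_right _ _)))
      hm2) hm2) hmb2 fun p => ?_
    exact (Nat.div_le_self _ _).trans (min_le_right _ _)
  refine key.congr fun y => ?_
  apply List.map_congr_left
  intro T hT
  have hT' := List.mem_range.1 hT
  unfold dirRaw
  congr 2
  apply List.map_congr_left
  intro l hl
  have hl' := List.mem_range.1 hl
  have hm0 : 0 < (cols y).length * (q y - 1) := by
    rcases Nat.eq_zero_or_pos ((cols y).length * (q y - 1)) with h0 | h0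
    · rw [h0, zero_pow (by omega)] at hT'
      omega
    · exact h0
  rw [min_eq_left hl'.le, min_eq_left (Nat.mod_lt _ hm0).le]

end

end Vale.Agent.P318.H110
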