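import Vale.Agent.P318.H110.SearchPT
import Vale.Agent.P318.NPV.PT

/-!
The parameters of the instance as functions of the number `N` of the indices of the system, and
their computation in polynomial time.
-/

namespace Vale.Agent.P318.H110

open Vale.Agent.P318.NPH Vale.Agent.Lib.PolyTime

/-- The side of the inner code: the number of the coordinates of the code is
`eOf N * eOf N`. -/
def eOf (N : ℕ) : ℕ := Nat.sqrt (Nat.size N) + 1

/-- The number of the coordinates of the code. -/
def kOf (N : ℕ) : ℕ := eOf N * eOf N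

/-- The list of the columns. -/
def colsI (s c dd N : ℕ) : List ℕ := colsN (2 ^ s) (findP (2 ^ s)) c (eOf N) 1 dd

theorem one_le_eOf (N : ℕ) : 1 ≤ eOf N := Nat.le_add_left _ _

theorem size_lt_kOf (N : ℕ) : Nat.size N < kOf N := Nat.lt_succ_sqrt (Nat.size N)

theorem one_le_kOf (N : ℕ) : 1 ≤ kOf N := by
  have := size_lt_kOf N
  omega

theorem kOf_le (N : ℕ) : kOf N ≤ 3 * Nat.size N + 1 := by
  unfold kOf eOf
  have h1 := Nat.sqrt_le (Nat.size N)
  have h2 := Nat.sqrt_le_self (Nat.size N)
  nlinarith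

theorem lt_two_pow_kOf (N : ℕ) : N < 2 ^ kOf N :=
  (Nat.lt_size_self N).trans_le (Nat.pow_le_pow_right (by norm_num) (size_lt_kOf N).le)

theorem length_colsN_le (q P c e dn dd : ℕ) :
    (colsN q P c e dn dd).length ≤ e * e + (c * e) * (c * e) := by
  unfold colsN squareN
  rw [List.length_append, List.length_map, List.length_map, List.length_range]
  have h1 : searchN q P c e dn dd % (c * e + 1) ≤ c * e :=
    Nat.lt_succ_iff.1 (Nat.mod_lt _ (Nat.succ_pos _))
  refine Nat.add_le_add_left ((List.length_filter_le _ _).trans ?_) _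
  rw [List.length_range]
  exact Nat.mul_le_mul h1 h1

section

variable {A : Set Word} {α : Type*} [Enc α] {N : α → ℕ}

theorem PT_sqrt {f : α → ℕ} (hf : PT A f) (hb : PBd f) : PT A (fun a => Nat.sqrt (f a)) := by
  refine ((PT.filter (f := fun a e => decide (0 < e) && decide (e * e ≤ f a))
    (PT.range (hf.add (PT.const 1)) (hb.add (PBd.const 1)))
    (PT.and (PT.lt (PT.const 0) PT.snd')
      (PT.le (PT.snd'.mul PT.snd') (hf.comp PT.fst')))).length).congr fun a => ?_
  have hnd : ((List.range (f a + 1)).filter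
      (fun e => decide (0 < e) && decide (e * e ≤ f a))).Nodup := List.nodup_range.filter _
  have h1 : ((List.range (f a + 1)).filter
      (fun e => decide (0 < e) && decide (e * e ≤ f a))).toFinset =
      Finset.Icc 1 (Nat.sqrt (f a)) := by
    ext e
    simp only [List.mem_toFinset, List.mem_filter, List.mem_range, Bool.and_eq_true,
      decide_eq_true_eq, Finset.mem_Icc, Nat.le_sqrt]
    constructor
    · rintro ⟨-, h2, h3⟩
      exact ⟨h2, h3⟩
    · rintro ⟨h2, h3⟩
      exact ⟨by nlinarith, h2, h3⟩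
  have h3 := List.toFinset_card_of_nodup hnd
  rw [h1, Nat.card_Icc] at h3
  omega

theorem PBd_size (hN : PT A N) : PBd (fun a => Nat.size (N a)) :=
  hN.pbd.mono fun a => (esize_nat (N a)).ge

theorem PT_eOf (hN : PT A N) : PT A (fun a => eOf (N a)) :=
  (PT_sqrt (PT.natSize hN) (PBd_size hN)).add (PT.const 1)

theorem PBd_eOf (hN : PT A N) : PBd (fun a => eOf (N a)) :=
  ((PBd_size hN).add (PBd.const 1)).mono fun _ => Nat.add_le_add_right (Nat.sqrt_le_self _) 1

theorem PT_kOf (hN : PT A N) : PT A (fun a => kOf (N a)) := (PT_eOf hN).mul (PT_eOf hN)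

theorem PBd_kOf (hN : PT A N) : PBd (fun a => kOf (N a)) := (PBd_eOf hN).mul (PBd_eOf hN)

theorem PBd_two_pow_kOf (hNb : PBd N) : PBd (fun a => 2 ^ kOf (N a)) := by
  refine ((PBd.const 2).mul ((NPV.PBd_two_pow_size hNb).pow 3)).mono fun a => ?_
  calc 2 ^ kOf (N a) ≤ 2 ^ (3 * Nat.size (N a) + 1) :=
        Nat.pow_le_pow_right (by norm_num) (kOf_le _)
    _ = 2 * (2 ^ Nat.size (N a)) ^ 3 := by rw [← pow_mul, pow_succ]; ring

/-- Powers of `2` with exponent a constant times `kOf`. -/
theorem PBd_two_pow_mul (hNb : PBd N) (r : ℕ) : PBd (fun a => 2 ^ (kOf (N a) * r)) :=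
  ((PBd_two_pow_kOf hNb).pow r).mono fun a => by rw [pow_mul]

theorem PBd_q_kk (hNb : PBd N) (s : ℕ) : PBd (fun a => (2 ^ s) ^ (eOf (N a) * eOf (N a))) :=
  (PBd_two_pow_mul hNb s).mono fun a => by
    rw [← pow_mul, mul_comm s]
    rfl

theorem PBd_q_ck (hNb : PBd N) (s c : ℕ) :
    PBd (fun a => (2 ^ s) ^ (eOf (N a) * (c * eOf (N a)))) :=
  (PBd_two_pow_mul hNb (s * c)).mono fun a => by
    rw [← pow_mul]
    apply le_of_eq
    congr 1
    unfold kOf
    ring

theorem PT_colsI (hN : PT A N) (hNb : PBd N) (s c dd : ℕ) :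
    PT A (fun a => colsI s c dd (N a)) :=
  PT_colsN (PT.const _) (PT.const _) (PT.const _) (PBd.const _) (PT_eOf hN) (PBd_eOf hN)
    (PT.const _) (PT.const _) (PBd_q_kk hNb s) (PBd_q_ck hNb s c)

theorem length_colsI_le (s c dd N : ℕ) :
    (colsI s c dd N).length ≤ kOf N * (c * c + 1) := by
  refine (length_colsN_le _ _ _ _ _ _).trans (le_of_eq ?_)
  unfold kOf
  ring

theorem PBd_length_colsI (hN : PT A N) (s c dd : ℕ) :
    PBd (fun a => (colsI s c dd (N a)).length) :=
  ((PBd_kOf hN).mul (PBd.const (c * c + 1))).mono fun _ => length_colsI_le _ _ _ _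

/-- The number of the vectors with `n` coordinates, `n` the number of the columns. -/
theorem PBd_q_length (hNb : PBd N) (s c dd : ℕ) :
    PBd (fun a => (2 ^ s) ^ (colsI s c dd (N a)).length) := by
  refine (PBd_two_pow_mul hNb (s * (c * c + 1))).mono fun a => ?_
  rw [← pow_mul]
  apply Nat.pow_le_pow_right (by norm_num)
  calc s * (colsI s c dd (N a)).length ≤ s * (kOf (N a) * (c * c + 1)) :=
        Nat.mul_le_mul_left _ (length_colsI_le _ _ _ _)
    _ = kOf (N a) * (s * (c * c + 1)) := by ring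

end

end Vale.Agent.P318.H110
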