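import Vale.Agent.P318.H110.SearchSpec

/-!
The search finds a good inner code, and the final list of columns is good.
-/

namespace Vale.Agent.P318.H110

open Vale.Agent.P318.NPH

variable {s P : ℕ}

theorem sysOk_iff (q e X : ℕ) : sysOk q e X = true ↔ ∀ i < e, dig (q ^ e) X i = q ^ i := by
  simp [sysOk]

/-- A good code gives a good candidate. -/
theorem exists_cand (hs : 1 ≤ s) (h : 2 ^ s ≤ P) (h' : P < 2 ^ (s + 1)) (c e dn dd n : ℕ)
    (hn : n ≤ c * e) (hen : e ≤ n) (a : Fin n → Fin e → AdjoinRoot (poly P))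
    (hsys : ∀ i : Fin e, a (Fin.castLE hen i) = Pi.single i 1) (hd : SqDist a dn dd) :
    ∃ t < (2 ^ s) ^ (e * (c * e)) * (c * e + 1), candOk (2 ^ s) P c e dn dd t = true := by
  have hq : 0 < 2 ^ s := by positivity
  choose g hg hg' using exists_num h h' e
  let f : ℕ → ℕ := fun j => if hj : j < n then g (a ⟨j, hj⟩) else 0
  have hf : ∀ j, f j < (2 ^ s) ^ e := by
    intro j
    simp only [f]
    split_ifs
    · exact hg _
    · positivity
  set X := ∑ j ∈ Finset.range n, f j * ((2 ^ s) ^ e) ^ j with hX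
  have hXlt : X < (2 ^ s) ^ (e * (c * e)) := by
    refine (sum_digit_lt f hf n).trans_le ?_
    rw [← pow_mul]
    exact Nat.pow_le_pow_right hq (Nat.mul_le_mul_left _ hn)
  have hdig : ∀ j : Fin n, vec P (2 ^ s) e (dig ((2 ^ s) ^ e) X j) = a j := by
    intro j
    rw [dig_sum f hf n j.2]
    simp only [f, j.2, dif_pos, hg']
  have hmod : (X * (c * e + 1) + n) % (c * e + 1) = n := by
    rw [Nat.mul_comm, Nat.mul_add_mod, Nat.mod_eq_of_lt (by omega)]
  have hdiv : (X * (c * e + 1) + n) / (c * e + 1) = X := by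
    rw [Nat.mul_comm, Nat.mul_add_div (by omega), Nat.div_eq_of_lt (by omega), add_zero]
  refine ⟨X * (c * e + 1) + n, ?_, ?_⟩
  · calc X * (c * e + 1) + n < X * (c * e + 1) + (c * e + 1) := by omega
      _ = (X + 1) * (c * e + 1) := by ring
      _ ≤ (2 ^ s) ^ (e * (c * e)) * (c * e + 1) := Nat.mul_le_mul_right _ hXlt
  · simp only [candOk, hmod, hdiv, Bool.and_eq_true, decide_eq_true_eq]
    refine ⟨hen, ?_, ?_⟩
    · rw [sysOk_iff]
      intro i hi
      have h1 := hdig (Fin.castLE hen ⟨i, hi⟩)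
      rw [hsys, ← vec_unit hs] at h1
      exact vec_inj h h' (dig_lt (by positivity) _ _) (Nat.pow_lt_pow_right
        (Nat.one_lt_two_pow (by omega)) hi) h1
    · rw [distOk_iff h h']
      simp only [hdig]
      exact hd

/-- The candidate found passes the test. -/
theorem searchN_spec (hs : 1 ≤ s) (h : 2 ^ s ≤ P) (h' : P < 2 ^ (s + 1)) (c e dn dd : ℕ)
    (hex : ∃ (n : ℕ) (_ : n ≤ c * e) (hen : e ≤ n) (a : Fin n → Fin e → AdjoinRoot (poly P)),
      (∀ i : Fin e, a (Fin.castLE hen i) = Pi.single i 1) ∧ SqDist a dn dd) :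
    candOk (2 ^ s) P c e dn dd (searchN (2 ^ s) P c e dn dd) = true := by
  obtain ⟨n, hn, hen, a, hsys, hd⟩ := hex
  obtain ⟨t, ht, ht'⟩ := exists_cand hs h h' c e dn dd n hn hen a hsys hd
  unfold searchN
  cases hf : (List.range ((2 ^ s) ^ (e * (c * e)) * (c * e + 1))).find? fun t =>
      candOk (2 ^ s) P c e dn dd t with
  | none =>
    rw [List.find?_eq_none] at hf
    exact absurd ht' (hf t (List.mem_range.2 ht))
  | some x => simpa using List.find?_some hf

/-! ### The tensor square -/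

theorem mulN_zero_left (h : 2 ^ s ≤ P) (h' : P < 2 ^ (s + 1)) (b : ℕ) :
    mulN (2 ^ s) P 0 b = 0 := by
  apply el_inj h h' (mulN_lt h h' _ (by positivity)) (by positivity)
  rw [el_mulN, el_zero, zero_mul]

theorem tensN_lt (h : 2 ^ s ≤ P) (h' : P < 2 ^ (s + 1)) (e a b : ℕ) :
    tensN (2 ^ s) P e a b < (2 ^ s) ^ (e * e) :=
  sum_digit_lt (fun i => mulN (2 ^ s) P (dig (2 ^ s) a (i % e)) (dig (2 ^ s) b (i / e)))
    (fun _ => mulN_lt h h' _ (dig_lt (by positivity) _ _)) _

theorem vec_tensN (h : 2 ^ s ≤ P) (h' : P < 2 ^ (s + 1)) (e a b : ℕ) :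
    vec P (2 ^ s) (e * e) (tensN (2 ^ s) P e a b) = fun i : Fin (e * e) =>
      vec P (2 ^ s) e a (finProdFinEquiv.symm i).2 * vec P (2 ^ s) e b (finProdFinEquiv.symm i).1 := by
  funext i
  have := dig_sum (b := 2 ^ s)
    (fun i => mulN (2 ^ s) P (dig (2 ^ s) a (i % e)) (dig (2 ^ s) b (i / e)))
    (fun _ => mulN_lt h h' _ (dig_lt (by positivity) _ _)) (e * e) i.2
  have h1 : dig (2 ^ s) (tensN (2 ^ s) P e a b) i =
    mulN (2 ^ s) P (dig (2 ^ s) a (i % e)) (dig (2 ^ s) b (i / e)) := this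
  simp only [vec, h1, el_mulN]
  rfl

/-- The tensor product of two unit vectors. -/
theorem tensN_unit (hs : 1 ≤ s) (h : 2 ^ s ≤ P) (h' : P < 2 ^ (s + 1)) {e i j : ℕ} (hi : i < e)
    (hj : j < e) : tensN (2 ^ s) P e ((2 ^ s) ^ i) ((2 ^ s) ^ j) = (2 ^ s) ^ (i + e * j) := by
  have hlt : i + e * j < e * e := by
    have : e * (j + 1) ≤ e * e := Nat.mul_le_mul_left _ hj
    rw [mul_add, mul_one] at this
    omega
  apply vec_inj h h' (tensN_lt h h' _ _ _)
    (Nat.pow_lt_pow_right (Nat.one_lt_two_pow (by omega)) hlt)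
  rw [vec_tensN h h', vec_unit hs e ⟨i, hi⟩, vec_unit hs e ⟨j, hj⟩,
    vec_unit hs (e * e) ⟨i + e * j, hlt⟩]
  funext l
  have hl : l = ⟨i + e * j, hlt⟩ ↔ (finProdFinEquiv.symm l).2 = ⟨i, hi⟩ ∧
      (finProdFinEquiv.symm l).1 = ⟨j, hj⟩ := by
    rw [show (⟨i + e * j, hlt⟩ : Fin (e * e)) = finProdFinEquiv (⟨j, hj⟩, ⟨i, hi⟩) from
      Fin.ext (by simp [finProdFinEquiv_apply_val])]
    rw [← Equiv.symm_apply_eq, Prod.ext_iff]
    exact and_comm
  simp only [Pi.single_apply, hl]
  generalize (finProdFinEquiv.symm l).2 = u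
  generalize (finProdFinEquiv.symm l).1 = v
  by_cases h1 : u = ⟨i, hi⟩ <;> by_cases h2 : v = ⟨j, hj⟩ <;> simp [h1, h2]

/-- The list of the pairs is, up to order, the full list. -/
theorem squareN_perm (hs : 1 ≤ s) (h : 2 ^ s ≤ P) (h' : P < 2 ^ (s + 1)) {e n X : ℕ}
    (hen : e ≤ n) (hsys : ∀ i < e, dig ((2 ^ s) ^ e) X i = (2 ^ s) ^ i) :
    (squareN (2 ^ s) P e n X).Perm ((List.range (n * n)).map fun p =>
      tensN (2 ^ s) P e (dig ((2 ^ s) ^ e) X (p % n)) (dig ((2 ^ s) ^ e) X (p / n))) := by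
  rcases Nat.eq_zero_or_pos e with rfl | he
  · simp [squareN]
  have hn : 0 < n := lt_of_lt_of_le he hen
  set T : ℕ → ℕ := fun p =>
    tensN (2 ^ s) P e (dig ((2 ^ s) ^ e) X (p % n)) (dig ((2 ^ s) ^ e) X (p / n)) with hT
  set B : ℕ → Bool := fun p => decide (p % n < e) && decide (p / n < e) with hB
  have h1 : ((List.range (e * e)).map fun i => (2 ^ s) ^ i) =
      ((List.range (e * e)).map fun i => i % e + n * (i / e)).map T := by
    rw [List.map_map]
    apply List.map_congr_left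
    intro i hi
    have hi' := List.mem_range.1 hi
    have hm : i % e < e := Nat.mod_lt _ he
    have hd : i / e < e := (Nat.div_lt_iff_lt_mul he).2 hi'
    simp only [Function.comp, hT]
    rw [Nat.add_mul_mod_self_left, Nat.mod_eq_of_lt (hm.trans_le hen),
      Nat.add_mul_div_left _ _ hn, Nat.div_eq_of_lt (hm.trans_le hen), zero_add,
      hsys _ hm, hsys _ hd, tensN_unit hs h h' hm hd, Nat.mod_add_div]
  have h2 : ((List.range (e * e)).map fun i => i % e + n * (i / e)).Perm
      ((List.range (n * n)).filter B) := by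
    rw [List.perm_ext_iff_of_nodup _ (List.nodup_range.filter _)]
    · intro p
      simp only [List.mem_map, List.mem_range, List.mem_filter, hB, Bool.and_eq_true,
        decide_eq_true_eq]
      constructor
      · rintro ⟨i, hi, rfl⟩
        have hm : i % e < e := Nat.mod_lt _ he
        have hd : i / e < e := (Nat.div_lt_iff_lt_mul he).2 hi
        have h3 : n * (i / e + 1) ≤ n * n := Nat.mul_le_mul_left _ (by omega)
        rw [mul_add, mul_one] at h3
        rw [Nat.add_mul_mod_self_left, Nat.mod_eq_of_lt (hm.trans_le hen),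
          Nat.add_mul_div_left _ _ hn, Nat.div_eq_of_lt (hm.trans_le hen), zero_add]
        exact ⟨by omega, hm, hd⟩
      · rintro ⟨hp, h3, h4⟩
        refine ⟨p % n + e * (p / n), ?_, ?_⟩
        · have : e * (p / n + 1) ≤ e * e := Nat.mul_le_mul_left _ h4
          rw [mul_add, mul_one] at this
          omega
        · rw [Nat.add_mul_mod_self_left, Nat.mod_eq_of_lt h3, Nat.add_mul_div_left _ _ he,
            Nat.div_eq_of_lt h3, zero_add, Nat.mod_add_div]
    · apply (List.nodup_range).map_on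
      intro i hi j hj hij
      have hm : i % e < n := (Nat.mod_lt _ he).trans_le hen
      have hm' : j % e < n := (Nat.mod_lt _ he).trans_le hen
      have h3 := congrArg (· % n) hij
      have h4 := congrArg (· / n) hij
      simp only [Nat.add_mul_mod_self_left, Nat.mod_eq_of_lt hm, Nat.mod_eq_of_lt hm',
        Nat.add_mul_div_left _ _ hn, Nat.div_eq_of_lt hm, Nat.div_eq_of_lt hm', zero_add] at h3 h4
      rw [← Nat.mod_add_div i e, ← Nat.mod_add_div j e, h3, h4]
  unfold squareN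
  rw [h1]
  refine ((h2.map T).append_right _).trans ?_
  rw [← List.map_append]
  exact (List.filter_append_perm B (List.range (n * n))).map T

/-! ### Counting in lists -/

theorem ncard_getD (L : List ℕ) (p : ℕ → Prop) [DecidablePred p] :
    {j : Fin L.length | p (L.getD j 0)}.ncard = L.countP (fun x => decide (p x)) := by
  classical
  have h1 : L = (List.finRange L.length).map fun j : Fin L.length => L.getD j 0 := by
    apply List.ext_getElem (by simp)
    intro i h1 h2
    simp [List.getD_eq_getElem?_getD, List.getElem?_eq_getElem h1]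
  rw [Set.ncard_eq_toFinset_card']
  conv_rhs => rw [h1, List.countP_map]
  rw [List.countP_eq_length_filter]
  have h2 : ({j : Fin L.length | p (L.getD j 0)} : Set (Fin L.length)).toFinset =
      ⟨(List.finRange L.length).filter fun j : Fin L.length => decide (p (L.getD j 0)),
        (List.nodup_finRange _).filter _⟩ := by
    ext j
    simp
  rw [h2]
  rfl

theorem sqDist_list {K : Type*} [CommSemiring K] {ι : Type*} [Fintype ι] {L L' : List ℕ}
    (f : ℕ → ι → K) {dn dd : ℕ} (hp : L.Perm L')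
    (hd : SqDist (fun j : Fin L'.length => f (L'.getD j 0)) dn dd) :
    SqDist (fun j : Fin L.length => f (L.getD j 0)) dn dd := by
  classical
  intro M ⟨j, hj⟩
  have h1 : L.getD j 0 ∈ L' := by
    rw [← hp.mem_iff, List.getD_eq_getElem _ _ j.2]
    exact List.getElem_mem _
  obtain ⟨i, hi, hi'⟩ := List.getElem_of_mem h1
  have h2 := hd M ⟨⟨i, hi⟩, by
    simp only [List.getD_eq_getElem _ _ hi, hi']
    exact hj⟩
  rw [ncard_getD L' (fun x => quad M (f x) ≠ 0)] at h2
  rw [ncard_getD L (fun x => quad M (f x) ≠ 0), hp.countP_eq]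
  simpa only [Fintype.card_fin, hp.length_eq] using h2

theorem sqDist_range {K : Type*} [CommSemiring K] {ι : Type*} [Fintype ι] (N : ℕ) (g : ℕ → ℕ)
    (f : ℕ → ι → K) {dn dd : ℕ} (hd : SqDist (fun j : Fin N => f (g j)) dn dd) :
    SqDist (fun j : Fin ((List.range N).map g).length => f (((List.range N).map g).getD j 0))
      dn dd := by
  have hl : ((List.range N).map g).length = N := by simp
  have := hd.reindex (Equiv.refl ι) (finCongr hl)
  convert this using 3 with j i
  have hj : (j : ℕ) < N := by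
    have := j.2
    simpa using this
  simp [List.getD_eq_getElem?_getD, List.getElem?_range hj]

/-- The tensor square of a good code. -/
theorem squareN_spec (hs : 1 ≤ s) (h : 2 ^ s ≤ P) (h' : P < 2 ^ (s + 1)) {e n X dn dd : ℕ}
    (hen : e ≤ n) (hsys : ∀ i < e, dig ((2 ^ s) ^ e) X i = (2 ^ s) ^ i)
    (hd : SqDist (fun (j : Fin n) => vec P (2 ^ s) e (dig ((2 ^ s) ^ e) X j)) dn dd) :
    (squareN (2 ^ s) P e n X).length = n * n ∧
    (∀ i < e * e, (squareN (2 ^ s) P e n X).getD i 0 = (2 ^ s) ^ i) ∧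
    (∀ x ∈ squareN (2 ^ s) P e n X, x < (2 ^ s) ^ (e * e)) ∧
    SqDist (fun j : Fin (squareN (2 ^ s) P e n X).length =>
      vec P (2 ^ s) (e * e) ((squareN (2 ^ s) P e n X).getD j 0)) (dn * dn) (dd * dd) := by
  have hp := squareN_perm hs h h' hen hsys
  refine ⟨by simpa using hp.length_eq, ?_, ?_, ?_⟩
  · intro i hi
    unfold squareN
    rw [List.getD_append _ _ _ _ (by simpa using hi)]
    simp [List.getD_eq_getElem?_getD, List.getElem?_range hi]
  · intro x hx
    rw [hp.mem_iff] at hx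
    obtain ⟨p, -, rfl⟩ := List.mem_map.1 hx
    exact tensN_lt h h' _ _ _
  · apply sqDist_list _ hp
    apply sqDist_range
    have h1 := hd.tensor hd
    have h2 := h1.reindex
      ((finProdFinEquiv (m := e) (n := e)).symm.trans (Equiv.prodComm _ _))
      ((finProdFinEquiv (m := n) (n := n)).symm.trans (Equiv.prodComm _ _))
    convert h2 using 2 with j
    rw [vec_tensN h h']
    funext i
    rfl

/-- The final list of columns. -/
theorem colsN_spec (hs : 1 ≤ s) (h : 2 ^ s ≤ P) (h' : P < 2 ^ (s + 1)) (c e dn dd : ℕ)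
    (hex : ∃ (n : ℕ) (_ : n ≤ c * e) (hen : e ≤ n) (a : Fin n → Fin e → AdjoinRoot (poly P)),
      (∀ i : Fin e, a (Fin.castLE hen i) = Pi.single i 1) ∧ SqDist a dn dd) :
    e * e ≤ (colsN (2 ^ s) P c e dn dd).length ∧
    (colsN (2 ^ s) P c e dn dd).length ≤ (c * e) * (c * e) ∧
    (∀ i < e * e, (colsN (2 ^ s) P c e dn dd).getD i 0 = (2 ^ s) ^ i) ∧
    (∀ x ∈ colsN (2 ^ s) P c e dn dd, x < (2 ^ s) ^ (e * e)) ∧
    SqDist (fun j : Fin (colsN (2 ^ s) P c e dn dd).length =>
      vec P (2 ^ s) (e * e) ((colsN (2 ^ s) P c e dn dd).getD j 0)) (dn * dn) (dd * dd) := by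
  have h1 := searchN_spec hs h h' c e dn dd hex
  simp only [candOk, Bool.and_eq_true, decide_eq_true_eq] at h1
  obtain ⟨hen, hsys, hd⟩ := h1
  rw [sysOk_iff] at hsys
  rw [distOk_iff h h'] at hd
  obtain ⟨h2, h3, h4, h5⟩ := squareN_spec hs h h' hen hsys hd
  have h6 : searchN (2 ^ s) P c e dn dd % (c * e + 1) ≤ c * e :=
    Nat.lt_succ_iff.1 (Nat.mod_lt _ (Nat.succ_pos _))
  unfold colsN
  refine ⟨?_, ?_, h3, h4, h5⟩
  · rw [h2]; exact Nat.mul_le_mul hen hen
  · rw [h2]; exact Nat.mul_le_mul h6 h6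

end Vale.Agent.P318.H110
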