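import Vale.Agent.P318.NPH.Defs

/-!
Search of a good inner code by exhaustion, and its tensor square; on natural numbers.

Vectors over the field with `q` elements with `e` coordinates are numbers below `q ^ e`
(digits in base `q`), and matrices with `e` rows and columns are numbers below `q ^ (e * e)`.
-/

namespace Vale.Agent.P318.H110

open Vale.Agent.P318.NPH

/-- The digit `j` of `X` in base `b`. -/
def dig (b X j : ℕ) : ℕ := X / b ^ j % b

/-- The sum of a list of field elements. -/
def xsum (l : List ℕ) : ℕ := l.foldr (fun a b => a ^^^ b) 0

/-- The value at `a` of the quadratic form with matrix `M`. -/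
def quadN (q P e M a : ℕ) : ℕ :=
  xsum ((List.range e).map fun i => xsum ((List.range e).map fun l =>
    mulN q P (dig q M (i + e * l)) (mulN q P (dig q a i) (dig q a l))))

/-- The number of columns among the first `n` at which the form does not vanish. -/
def wtN (q P e n X M : ℕ) : ℕ :=
  ((List.range n).filter fun j => !decide (quadN q P e M (dig (q ^ e) X j) = 0)).length

/-- The first columns are the unit vectors. -/
def sysOk (q e X : ℕ) : Bool := (List.range e).all fun i => decide (dig (q ^ e) X i = q ^ i)

/-- Every quadratic form vanishes at all columns, or does not vanish at a fraction `dn / dd` of the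
columns. -/
def distOk (q P e n X dn dd : ℕ) : Bool := (List.range (q ^ (e * e))).all fun M =>
  decide (wtN q P e n X M = 0) || decide (dn * n ≤ dd * wtN q P e n X M)

/-- The test of the candidate `t`: its number of columns is `t % (c * e + 1)`, and the columns are
the digits of `t / (c * e + 1)` in base `q ^ e`. -/
def candOk (q P c e dn dd t : ℕ) : Bool :=
  decide (e ≤ t % (c * e + 1)) && (sysOk q e (t / (c * e + 1)) &&
    distOk q P e (t % (c * e + 1)) (t / (c * e + 1)) dn dd)

/-- The candidate found. -/
def searchN (q P c e dn dd : ℕ) : ℕ :=
  ((List.range (q ^ (e * (c * e)) * (c * e + 1))).find? fun t =>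
    candOk q P c e dn dd t).getD 0

/-- The tensor product of two vectors with `e` coordinates. -/
def tensN (q P e a b : ℕ) : ℕ :=
  ((List.range (e * e)).map fun i => mulN q P (dig q a (i % e)) (dig q b (i / e)) * q ^ i).sum

/-- The columns of the tensor square of the code with `n` columns `X`: first the unit vectors. -/
def squareN (q P e n X : ℕ) : List ℕ :=
  ((List.range (e * e)).map fun i => q ^ i) ++
    ((List.range (n * n)).filter fun p => !(decide (p % n < e) && decide (p / n < e))).map fun p =>
      tensN q P e (dig (q ^ e) X (p % n)) (dig (q ^ e) X (p / n))

/-- The columns of the final code, with `e * e` coordinates. -/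
def colsN (q P c e dn dd : ℕ) : List ℕ :=
  squareN q P e (searchN q P c e dn dd % (c * e + 1)) (searchN q P c e dn dd / (c * e + 1))

end Vale.Agent.P318.H110
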