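import Mathlib

/-!
Columns `a j` of a generator matrix such that every quadratic form vanishes at all of them or does
not vanish at many of them; tensor squares.
-/

namespace Vale.Agent.P318.H110

open Finset

variable {K : Type*} [CommSemiring K]

/-- The value of the quadratic form with matrix `M`. -/
def quad {ι : Type*} [Fintype ι] (M : ι → ι → K) (v : ι → K) : K :=
  ∑ i, ∑ l, M i l * (v i * v l)

/-- Every quadratic form vanishes at all columns, or does not vanish at a fraction `dn / dd` of the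
columns. -/
def SqDist {ι κ : Type*} [Fintype ι] [Fintype κ] (a : κ → ι → K) (dn dd : ℕ) : Prop :=
  ∀ M : ι → ι → K, (∃ j, quad M (a j) ≠ 0) →
    dn * Fintype.card κ ≤ dd * {j | quad M (a j) ≠ 0}.ncard

theorem quad_left {ι ι' : Type*} [Fintype ι] [Fintype ι'] (M : ι × ι' → ι × ι' → K)
    (v : ι → K) (w : ι' → K) :
    quad M (fun i => v i.1 * w i.2) =
      quad (fun i l => ∑ i', ∑ l', M (i, i') (l, l') * (w i' * w l')) v := by
  simp only [quad, Fintype.sum_prod_type, Finset.sum_mul]
  refine Finset.sum_congr rfl fun i _ => ?_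
  rw [Finset.sum_comm]
  refine Finset.sum_congr rfl fun l _ => ?_
  refine Finset.sum_congr rfl fun i' _ => ?_
  refine Finset.sum_congr rfl fun l' _ => ?_
  ring

theorem quad_right {ι ι' : Type*} [Fintype ι] [Fintype ι'] (M : ι × ι' → ι × ι' → K)
    (v : ι → K) (w : ι' → K) :
    quad M (fun i => v i.1 * w i.2) =
      quad (fun i' l' => ∑ i, ∑ l, M (i, i') (l, l') * (v i * v l)) w := by
  simp only [quad, Fintype.sum_prod_type, Finset.sum_mul]
  rw [Finset.sum_comm]
  refine Finset.sum_congr rfl fun i' _ => ?_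
  have h : ∀ i, ∑ l, ∑ l', M (i, i') (l, l') * (v i * w i' * (v l * w l')) =
      ∑ l', ∑ l, M (i, i') (l, l') * (v i * w i' * (v l * w l')) := fun i => Finset.sum_comm
  rw [Finset.sum_congr rfl fun i _ => h i, Finset.sum_comm]
  refine Finset.sum_congr rfl fun l' _ => ?_
  refine Finset.sum_congr rfl fun i _ => ?_
  refine Finset.sum_congr rfl fun l _ => ?_
  ring

/-- The tensor product of two codes. -/
theorem SqDist.tensor {ι ι' κ κ' : Type*} [Fintype ι] [Fintype ι'] [Fintype κ] [Fintype κ']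
    {a : κ → ι → K} {b : κ' → ι' → K} {dn dd dn' dd' : ℕ} (ha : SqDist a dn dd)
    (hb : SqDist b dn' dd') :
    SqDist (fun (p : κ × κ') (i : ι × ι') => a p.1 i.1 * b p.2 i.2) (dn * dn') (dd * dd') := by
  classical
  intro M ⟨⟨j0, j1⟩, hj⟩
  simp only at hj
  have h1 := ha (fun i l => ∑ i', ∑ l', M (i, i') (l, l') * (b j1 i' * b j1 l'))
    ⟨j0, by rw [← quad_left]; exact hj⟩
  simp only [← quad_left] at h1
  have h2 : ∀ j, quad M (fun i => a j i.1 * b j1 i.2) ≠ 0 →
      dn' * Fintype.card κ' ≤ dd' * {j' | quad M (fun i => a j i.1 * b j' i.2) ≠ 0}.ncard := by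
    intro j hj
    have := hb (fun i' l' => ∑ i, ∑ l, M (i, i') (l, l') * (a j i * a j l))
      ⟨j1, by rw [← quad_right]; exact hj⟩
    simpa only [← quad_right] using this
  rw [Fintype.card_prod]
  set J : Set κ := {j | quad M (fun i => a j i.1 * b j1 i.2) ≠ 0} with hJ
  set W : Set (κ × κ') := {j | quad M (fun i => a j.1 i.1 * b j.2 i.2) ≠ 0} with hW
  have hsum : W.ncard = ∑ j, {j' | quad M (fun i => a j i.1 * b j' i.2) ≠ 0}.ncard := by
    rw [Set.ncard_eq_toFinset_card', Finset.card_eq_sum_card_fiberwise (f := Prod.fst) (t := univ)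
      (fun x _ => Finset.mem_coe.2 (Finset.mem_univ _))]
    refine Finset.sum_congr rfl fun j _ => ?_
    rw [Set.ncard_eq_toFinset_card']
    apply Finset.card_bij (fun x _ => x.2)
    · intro x hx
      simp only [Finset.mem_filter, Set.mem_toFinset, hW, Set.mem_ofPred_eq] at hx ⊢
      rw [← hx.2]; exact hx.1
    · intro x hx y hy hxy
      simp only [Finset.mem_filter] at hx hy
      exact Prod.ext (hx.2.trans hy.2.symm) hxy
    · intro y hy
      refine ⟨(j, y), ?_, rfl⟩
      simp only [Finset.mem_filter, Set.mem_toFinset, hW, Set.mem_ofPred_eq] at hy ⊢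
      exact ⟨hy, trivial⟩
  have h3 : J.ncard * (dn' * Fintype.card κ') ≤ dd' * W.ncard := by
    rw [hsum, Finset.mul_sum, Set.ncard_eq_toFinset_card', ← smul_eq_mul, ← Finset.sum_const]
    refine (Finset.sum_le_sum fun j hj => h2 j ?_).trans
      (Finset.sum_le_sum_of_subset (Finset.subset_univ _))
    simpa [hJ] using hj
  calc dn * dn' * (Fintype.card κ * Fintype.card κ')
      = (dn * Fintype.card κ) * (dn' * Fintype.card κ') := by ring
    _ ≤ (dd * J.ncard) * (dn' * Fintype.card κ') := Nat.mul_le_mul_right _ h1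
    _ = dd * (J.ncard * (dn' * Fintype.card κ')) := by ring
    _ ≤ dd * (dd' * W.ncard) := Nat.mul_le_mul_left _ h3
    _ = dd * dd' * W.ncard := by ring

/-- Renaming of the coordinates and of the columns. -/
theorem SqDist.reindex {ι ι' κ κ' : Type*} [Fintype ι] [Fintype ι'] [Fintype κ] [Fintype κ']
    {a : κ → ι → K} {dn dd : ℕ} (ha : SqDist a dn dd) (f : ι' ≃ ι) (g : κ' ≃ κ) :
    SqDist (fun j i => a (g j) (f i)) dn dd := by
  intro M ⟨j, hj⟩
  have hq : ∀ j, quad M (fun i => a j (f i)) = quad (fun i l => M (f.symm i) (f.symm l)) (a j) := by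
    intro j
    unfold quad
    rw [← f.symm.sum_comp]
    refine Finset.sum_congr rfl fun i _ => ?_
    rw [← f.symm.sum_comp]
    simp
  have h := ha (fun i l => M (f.symm i) (f.symm l)) ⟨g j, by rw [← hq]; exact hj⟩
  rw [Fintype.card_congr g]
  refine h.trans (Nat.mul_le_mul_left _ ?_)
  rw [← Set.ncard_image_of_injective _ g.symm.injective]
  apply Set.ncard_le_ncard _ (Set.toFinite _)
  rintro _ ⟨j, hj, rfl⟩
  simp only [Set.mem_ofPred_eq] at hj ⊢
  rw [Equiv.apply_symm_apply, hq]
  exact hj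

end Vale.Agent.P318.H110
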