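import Vale.Agent.P318.H110.SearchDefs
import Vale.Agent.P318.H110.SqDist
import Vale.Agent.P318.NPH.FieldN

/-!
Correctness of the search of the inner code and of its tensor square.
-/

namespace Vale.Agent.P318.H110

open Vale.Agent.P318.NPH

/-! ### Digits -/

theorem sum_digit_lt {b : ℕ} (f : ℕ → ℕ) (hf : ∀ i, f i < b) (N : ℕ) :
    ∑ i ∈ Finset.range N, f i * b ^ i < b ^ N := by
  induction N with
  | zero => simp
  | succ N ih =>
    rw [Finset.sum_range_succ, pow_succ]
    have h1 : (f N + 1) * b ^ N ≤ b * b ^ N := Nat.mul_le_mul_right _ (hf N)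
    rw [add_mul, one_mul] at h1
    have h2 : b ^ N * b = b * b ^ N := Nat.mul_comm _ _
    omega

theorem dig_sum {b : ℕ} (f : ℕ → ℕ) (hf : ∀ i, f i < b) (N : ℕ) {j : ℕ} (hj : j < N) :
    dig b (∑ i ∈ Finset.range N, f i * b ^ i) j = f j := by
  have hb : 0 < b := lt_of_le_of_lt (Nat.zero_le _) (hf 0)
  induction N with
  | zero => omega
  | succ N ih =>
    rw [Finset.sum_range_succ]
    unfold dig at ih ⊢
    rcases Nat.lt_succ_iff_lt_or_eq.1 hj with h | rfl
    · obtain ⟨d, rfl⟩ : ∃ d, N = j + 1 + d := ⟨N - (j + 1), by omega⟩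
      have : f (j + 1 + d) * b ^ (j + 1 + d) = b ^ j * (b * (f (j + 1 + d) * b ^ d)) := by
        rw [pow_add, pow_add, pow_one]; ring
      rw [this, Nat.add_mul_div_left _ _ (by positivity), Nat.add_mul_mod_self_left]
      exact ih h
    · rw [Nat.add_mul_div_right _ _ (by positivity), Nat.div_eq_of_lt (sum_digit_lt f hf _),
        zero_add, Nat.mod_eq_of_lt (hf j)]

theorem dig_lt {b : ℕ} (hb : 0 < b) (X j : ℕ) : dig b X j < b := Nat.mod_lt _ hb

theorem list_sum_range (f : ℕ → ℕ) (N : ℕ) :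
    ((List.range N).map f).sum = ∑ i ∈ Finset.range N, f i := rfl

/-! ### Values of quadratic forms -/

variable {s P : ℕ}

theorem el_xsum (P : ℕ) (f : ℕ → ℕ) (l : List ℕ) :
    el P (xsum (l.map f)) = (l.map fun i => el P (f i)).sum := by
  induction l with
  | nil => simp [xsum, el_zero]
  | cons a l ih =>
    have : xsum ((a :: l).map f) = f a ^^^ xsum (l.map f) := rfl
    rw [this, el_xor, ih, List.map_cons, List.sum_cons]

theorem xsum_lt {l : List ℕ} (h : ∀ x ∈ l, x < 2 ^ s) : xsum l < 2 ^ s := by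
  induction l with
  | nil => exact Nat.two_pow_pos s
  | cons a l ih =>
    exact Nat.xor_lt_two_pow (h a List.mem_cons_self) (ih fun x hx => h x (List.mem_cons_of_mem _ hx))

/-- The vector with the digits of `a` as coordinates. -/
noncomputable def vec (P q k a : ℕ) (i : Fin k) : AdjoinRoot (poly P) := el P (dig q a i)

/-- The matrix with the digits of `M` as entries. -/
noncomputable def mat (P q k M : ℕ) (i l : Fin k) : AdjoinRoot (poly P) :=
  el P (dig q M ((i : ℕ) + k * l))

theorem el_quadN (q P e M a : ℕ) :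
    el P (quadN q P e M a) = quad (mat P q e M) (vec P q e a) := by
  unfold quadN
  rw [el_xsum]
  have h : ∀ i, el P (xsum ((List.range e).map fun l =>
      mulN q P (dig q M (i + e * l)) (mulN q P (dig q a i) (dig q a l)))) =
      ∑ l : Fin e, el P (dig q M (i + e * l)) * (el P (dig q a i) * el P (dig q a l)) := by
    intro i
    rw [el_xsum]
    have : ((List.range e).map fun l => el P (mulN q P (dig q M (i + e * l))
        (mulN q P (dig q a i) (dig q a l)))).sum = ∑ l ∈ Finset.range e,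
        el P (mulN q P (dig q M (i + e * l)) (mulN q P (dig q a i) (dig q a l))) := rfl
    rw [this, Finset.sum_range]
    simp only [el_mulN]
  simp only [h]
  have : ∀ f : ℕ → AdjoinRoot (poly P), ((List.range e).map f).sum = ∑ i : Fin e, f i := by
    intro f
    rw [← Finset.sum_range]
    rfl
  rw [this]
  rfl

theorem quadN_lt (h : 2 ^ s ≤ P) (h' : P < 2 ^ (s + 1)) (e M a : ℕ) :
    quadN (2 ^ s) P e M a < 2 ^ s := by
  unfold quadN
  apply xsum_lt
  intro x hx
  obtain ⟨i, -, rfl⟩ := List.mem_map.1 hx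
  apply xsum_lt
  intro x hx
  obtain ⟨l, -, rfl⟩ := List.mem_map.1 hx
  exact mulN_lt h h' _ (dig_lt (by positivity) _ _)

theorem quadN_eq_zero (h : 2 ^ s ≤ P) (h' : P < 2 ^ (s + 1)) (e M a : ℕ) :
    quadN (2 ^ s) P e M a = 0 ↔ quad (mat P (2 ^ s) e M) (vec P (2 ^ s) e a) = 0 := by
  rw [← el_quadN]
  constructor
  · intro h0
    rw [h0, el_zero]
  · intro h0
    rw [← el_zero P] at h0
    exact el_inj h h' (quadN_lt h h' _ _ _) (by positivity) h0

/-- Codes of field elements. -/
theorem exists_num (h : 2 ^ s ≤ P) (h' : P < 2 ^ (s + 1)) (k : ℕ)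
    (v : Fin k → AdjoinRoot (poly P)) : ∃ a < (2 ^ s) ^ k, vec P (2 ^ s) k a = v := by
  classical
  choose c hc hc' using el_surj h h'
  let f : ℕ → ℕ := fun i => if hi : i < k then c (v ⟨i, hi⟩) else 0
  have hf : ∀ i, f i < 2 ^ s := by
    intro i
    simp only [f]
    split_ifs
    · exact hc _
    · positivity
  refine ⟨∑ i ∈ Finset.range k, f i * (2 ^ s) ^ i, sum_digit_lt f hf k, ?_⟩
  funext i
  simp only [vec, dig_sum f hf k i.2]
  simp only [f, i.2, dif_pos, hc']

theorem exists_mat (h : 2 ^ s ≤ P) (h' : P < 2 ^ (s + 1)) (k : ℕ)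
    (M : Fin k → Fin k → AdjoinRoot (poly P)) :
    ∃ m < (2 ^ s) ^ (k * k), mat P (2 ^ s) k m = M := by
  obtain ⟨m, hm, hm'⟩ := exists_num h h' (k * k)
    (fun i => M (finProdFinEquiv.symm i).2 (finProdFinEquiv.symm i).1)
  refine ⟨m, hm, ?_⟩
  funext i l
  have := congrFun hm' (finProdFinEquiv (l, i))
  simp only [Equiv.symm_apply_apply] at this
  rw [← this]
  simp only [mat, vec, finProdFinEquiv_apply_val]

/-- Two numbers with the same vector are equal. -/
theorem vec_inj (h : 2 ^ s ≤ P) (h' : P < 2 ^ (s + 1)) {k a b : ℕ} (ha : a < (2 ^ s) ^ k)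
    (hb : b < (2 ^ s) ^ k) (hab : vec P (2 ^ s) k a = vec P (2 ^ s) k b) : a = b := by
  have : (⟨a, ha⟩ : Fin ((2 ^ s) ^ k)) = ⟨b, hb⟩ := by
    apply finFunctionFinEquiv.symm.injective
    funext j
    apply Fin.ext
    rw [finFunctionFinEquiv_symm_apply_val, finFunctionFinEquiv_symm_apply_val]
    exact el_inj h h' (Nat.mod_lt _ (by positivity)) (Nat.mod_lt _ (by positivity))
      (congrFun hab j)
  exact congrArg Fin.val this

theorem vec_unit (hs : 1 ≤ s) (k : ℕ) (i : Fin k) :
    vec P (2 ^ s) k ((2 ^ s) ^ (i : ℕ)) = Pi.single i 1 := by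
  have h2 : 1 < 2 ^ s := Nat.one_lt_two_pow (by omega)
  have hf : ∀ j, (if j = (i : ℕ) then 1 else 0) < 2 ^ s := by
    intro j
    split_ifs <;> omega
  have hsum : ∑ j ∈ Finset.range k, (if j = (i : ℕ) then 1 else 0) * (2 ^ s) ^ j =
      (2 ^ s) ^ (i : ℕ) := by
    simp
  funext j
  have := dig_sum (b := 2 ^ s) (fun j => if j = (i : ℕ) then 1 else 0) hf k j.2
  rw [hsum] at this
  simp only [vec, this, Pi.single_apply, Fin.ext_iff]
  split_ifs
  · exact el_one P
  · exact el_zero P

/-! ### The test -/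

theorem wtN_eq (h : 2 ^ s ≤ P) (h' : P < 2 ^ (s + 1)) (e n X M : ℕ) :
    wtN (2 ^ s) P e n X M = {j : Fin n | quad (mat P (2 ^ s) e M)
      (vec P (2 ^ s) e (dig ((2 ^ s) ^ e) X j)) ≠ 0}.ncard := by
  classical
  have h1 : wtN (2 ^ s) P e n X M = ((Finset.range n).filter fun j =>
      ¬ quad (mat P (2 ^ s) e M) (vec P (2 ^ s) e (dig ((2 ^ s) ^ e) X j)) = 0).card := by
    have : (Finset.range n).filter (fun j =>
      ¬ quad (mat P (2 ^ s) e M) (vec P (2 ^ s) e (dig ((2 ^ s) ^ e) X j)) = 0) =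
      ⟨((List.range n).filter fun j => !decide (quadN (2 ^ s) P e M (dig ((2 ^ s) ^ e) X j) = 0)),
        by exact (List.nodup_range.filter _)⟩ := by
      ext j
      simp only [Finset.mem_filter, Finset.mem_range, Finset.mem_mk, Multiset.mem_coe,
        List.mem_filter, List.mem_range, Bool.not_eq_true', decide_eq_false_iff_not,
        quadN_eq_zero h h']
    rw [this]
    rfl
  rw [h1, Set.ncard_eq_toFinset_card']
  symm
  apply Finset.card_bij (fun (j : Fin n) _ => (j : ℕ))
  · intro j hj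
    simp only [Set.mem_toFinset, Set.mem_ofPred_eq] at hj
    exact Finset.mem_filter.2 ⟨Finset.mem_range.2 j.2, hj⟩
  · intro a _ b _ hab
    exact Fin.ext hab
  · intro b hb
    obtain ⟨hb1, hb2⟩ := Finset.mem_filter.1 hb
    refine ⟨⟨b, Finset.mem_range.1 hb1⟩, ?_, rfl⟩
    simpa only [Set.mem_toFinset, Set.mem_ofPred_eq] using hb2

theorem distOk_iff (h : 2 ^ s ≤ P) (h' : P < 2 ^ (s + 1)) (e n X dn dd : ℕ) :
    distOk (2 ^ s) P e n X dn dd = true ↔
      SqDist (fun (j : Fin n) => vec P (2 ^ s) e (dig ((2 ^ s) ^ e) X j)) dn dd := by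
  unfold distOk SqDist
  simp only [List.all_eq_true, List.mem_range, Bool.or_eq_true, decide_eq_true_eq,
    wtN_eq h h', Fintype.card_fin]
  constructor
  · intro hM M ⟨j, hj⟩
    obtain ⟨m, hm, rfl⟩ := exists_mat h h' e M
    rcases hM m hm with h0 | h0
    · rw [Set.ncard_eq_zero (Set.toFinite _)] at h0
      exact absurd hj (by
        have : j ∉ {j : Fin n | quad (mat P (2 ^ s) e m)
          (vec P (2 ^ s) e (dig ((2 ^ s) ^ e) X j)) ≠ 0} := by rw [h0]; exact Set.notMem_empty _
        exact this)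
    · exact h0
  · intro hM m hm
    by_cases h0 : ∃ j : Fin n, quad (mat P (2 ^ s) e m)
        (vec P (2 ^ s) e (dig ((2 ^ s) ^ e) X j)) ≠ 0
    · exact Or.inr (hM _ h0)
    · left
      rw [Set.ncard_eq_zero (Set.toFinite _)]
      ext j
      simp only [Set.mem_ofPred_eq, Set.mem_empty_iff_false, iff_false]
      exact fun hj => h0 ⟨j, hj⟩

end Vale.Agent.P318.H110
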