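import Vale.Agent.P318.H110.SearchSpec
import Vale.Agent.P318.H110.DetN

/-!
Vectors over the field with `2 ^ s` elements and natural numbers: the bijection and its
compatibility with sums and scalar multiples; lists of numbers and finite families.
-/

namespace Vale.Agent.P318.H110

open Vale.Agent.P318.NPH

variable {s P : ℕ}

theorem vec_xor (P s n a b : ℕ) :
    vec P (2 ^ s) n (a ^^^ b) = vec P (2 ^ s) n a + vec P (2 ^ s) n b := by
  funext j
  simp only [vec, dig, Pi.add_apply]
  rw [xor_digit, el_xor]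

theorem vec_zero (P q n : ℕ) : vec P q n 0 = 0 := by
  funext j
  simp [vec, dig, el_zero]

theorem smulN_eq (q P M u h : ℕ) :
    smulN q P M u h = ∑ j ∈ Finset.range M, mulN q P u (dig q h j) * q ^ j := rfl

/-- The digits of a number, as a function with small values. -/
theorem vec_smulN (h : 2 ^ s ≤ P) (h' : P < 2 ^ (s + 1)) (n : ℕ) {u : ℕ} (hu : u < 2 ^ s) (a : ℕ) :
    vec P (2 ^ s) n (smulN (2 ^ s) P n u a) = el P u • vec P (2 ^ s) n a := by
  funext j
  have := dig_sum (b := 2 ^ s) (fun j => mulN (2 ^ s) P u (dig (2 ^ s) a j))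
    (fun _ => mulN_lt h h' _ hu) n j.2
  rw [smulN_eq]
  simp only [vec, this, el_mulN, Pi.smul_apply, smul_eq_mul]

theorem smulN_lt (h : 2 ^ s ≤ P) (h' : P < 2 ^ (s + 1)) (n : ℕ) {u : ℕ} (hu : u < 2 ^ s) (a : ℕ) :
    smulN (2 ^ s) P n u a < (2 ^ s) ^ n := by
  rw [smulN_eq]
  exact sum_digit_lt (fun j => mulN (2 ^ s) P u (dig (2 ^ s) a j)) (fun _ => mulN_lt h h' _ hu) n

theorem xsum_lt_pow {L : ℕ} {l : List ℕ} (h : ∀ x ∈ l, x < (2 ^ s) ^ L) :
    xsum l < (2 ^ s) ^ L := by
  rw [← pow_mul] at *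
  exact xsum_lt (s := s * L) h

theorem vec_xsum (P s n : ℕ) (l : List ℕ) :
    vec P (2 ^ s) n (xsum l) = (l.map (vec P (2 ^ s) n)).sum := by
  induction l with
  | nil => exact vec_zero P (2 ^ s) n
  | cons a l ih =>
    have : xsum (a :: l) = a ^^^ xsum l := rfl
    rw [this, vec_xor, ih, List.map_cons, List.sum_cons]

theorem vec_xsum_range (P s n : ℕ) (f : ℕ → ℕ) (N : ℕ) :
    vec P (2 ^ s) n (xsum ((List.range N).map f)) = ∑ l : Fin N, vec P (2 ^ s) n (f l) := by
  rw [vec_xsum, List.map_map, ← list_sum_fin (fun i => vec P (2 ^ s) n (f i))]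
  rfl

/-- A number with one nonzero digit. -/
theorem vec_mul_pow (P s n : ℕ) {c : ℕ} (hc : c < 2 ^ s) (j : Fin n) :
    vec P (2 ^ s) n (c * (2 ^ s) ^ (j : ℕ)) = Pi.single j (el P c) := by
  have hf : ∀ i, (if i = (j : ℕ) then c else 0) < 2 ^ s := by
    intro i
    split_ifs
    · exact hc
    · positivity
  have hsum : ∑ i ∈ Finset.range n, (if i = (j : ℕ) then c else 0) * (2 ^ s) ^ i =
      c * (2 ^ s) ^ (j : ℕ) := by
    simp
  funext i
  have := dig_sum (b := 2 ^ s) (fun i => if i = (j : ℕ) then c else 0) hf n i.2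
  rw [hsum] at this
  simp only [vec, this, Pi.single_apply, Fin.ext_iff]
  split_ifs
  · rfl
  · exact el_zero P

/-- Field elements and the numbers below `2 ^ s`. -/
noncomputable def elE (h : 2 ^ s ≤ P) (h' : P < 2 ^ (s + 1)) :
    Fin (2 ^ s) ≃ AdjoinRoot (poly P) :=
  Equiv.ofBijective (fun n : Fin (2 ^ s) => el P n)
    ⟨fun a b hab => Fin.ext (el_inj h h' a.2 b.2 hab), fun x => by
      obtain ⟨n, hn, hx⟩ := el_surj h h' x
      exact ⟨⟨n, hn⟩, hx⟩⟩

theorem elE_apply (h : 2 ^ s ≤ P) (h' : P < 2 ^ (s + 1)) (a : Fin (2 ^ s)) :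
    elE h h' a = el P a := rfl

/-- Vectors and the numbers below `(2 ^ s) ^ n`. -/
noncomputable def vecE (h : 2 ^ s ≤ P) (h' : P < 2 ^ (s + 1)) (n : ℕ) :
    Fin ((2 ^ s) ^ n) ≃ (Fin n → AdjoinRoot (poly P)) :=
  Equiv.ofBijective (fun a : Fin ((2 ^ s) ^ n) => vec P (2 ^ s) n a)
    ⟨fun a b hab => Fin.ext (vec_inj h h' a.2 b.2 hab), fun v => by
      obtain ⟨a, ha, hv⟩ := exists_num h h' n v
      exact ⟨⟨a, ha⟩, hv⟩⟩

theorem vecE_apply (h : 2 ^ s ≤ P) (h' : P < 2 ^ (s + 1)) (n : ℕ) (a : Fin ((2 ^ s) ^ n)) :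
    vecE h h' n a = vec P (2 ^ s) n a := rfl

theorem vec_eq_zero (h : 2 ^ s ≤ P) (h' : P < 2 ^ (s + 1)) {n a : ℕ} (ha : a < (2 ^ s) ^ n) :
    vec P (2 ^ s) n a = 0 ↔ a = 0 := by
  constructor
  · intro h0
    rw [← vec_zero P (2 ^ s) n] at h0
    exact vec_inj h h' ha (by positivity) h0
  · rintro rfl
    exact vec_zero P (2 ^ s) n

/-! ### Lists and families -/

/-- A list and a family with the same values (with multiplicities) are matched by a bijection of
the index sets. -/
theorem exists_equiv_of_map_eq {B γ : Type*} [Fintype B] (L : List ℕ) (g : ℕ → γ) (f : B → γ)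
    (h : Multiset.map g (L : Multiset ℕ) = Multiset.map f Finset.univ.val) :
    ∃ e : Fin L.length ≃ B, ∀ i : Fin L.length, g (L.getD i 0) = f (e i) := by
  classical
  have hL : ∀ i : Fin L.length, L.getD i 0 = L.get i := by
    intro i
    simp
  have h1 : ∀ c : γ, Fintype.card {i : Fin L.length // g (L.get i) = c} =
      Fintype.card {b : B // f b = c} := by
    intro c
    have h2 := congrArg (Multiset.count c) h
    rw [Multiset.map_coe, Multiset.coe_count] at h2
    have h3 : L.map g = (List.finRange L.length).map fun i => g (L.get i) := by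
      conv_lhs => rw [← List.map_get_finRange L]
      rw [List.map_map]
      rfl
    rw [h3, List.count, List.countP_map, List.countP_eq_length_filter] at h2
    rw [Fintype.card_subtype, Fintype.card_subtype]
    have h4 : (Finset.univ.filter fun i : Fin L.length => g (L.get i) = c) =
        ⟨(List.finRange L.length).filter ((fun x => x == c) ∘ fun i => g (L.get i)),
          (List.nodup_finRange _).filter _⟩ := by
      ext i
      simp
    rw [h4]
    refine (h2 : _ = _).trans ?_
    rw [Multiset.count_map]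
    congr 1
    simp only [Finset.filter, eq_comm]
  refine ⟨(Equiv.sigmaFiberEquiv fun i : Fin L.length => g (L.get i)).symm.trans
    ((Equiv.sigmaCongrRight fun c => Fintype.equivOfCardEq (h1 c)).trans
      (Equiv.sigmaFiberEquiv f)), ?_⟩
  intro i
  rw [hL]
  exact (((Fintype.equivOfCardEq (h1 (g (L.get i)))) ⟨i, rfl⟩).2).symm

end Vale.Agent.P318.H110
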